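import Crest.Agent.X262.Res.Defs
import Crest.Agent.X277.Res.LogD
import Crest.Agent.X277.Cns.PBL
import Crest.Agent.X262.Gwb.Defs
import Crest.Agent.X277.Cns.Prod
import Crest.Agent.X277.Cns.Lift
import Crest.Agent.X262.Ms2.Pn
import Crest.Agent.X262.End36.Emb
import Crest.Agent.X262.Form88.Snc
import Crest.Agent.X262.Gwb.Mst
import Crest.Agent.X262.Geo.Dv
import Crest.Agent.X262.Form88.Pur
import Crest.Agent.X262.Ms2.Defs
import Crest.Agent.X262.Res.Main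
import Crest.Agent.X262.Ends.Pl
import Crest.Agent.X262.Vb37.Univ

-- ▼ part X262/Ms2/Keep
section

/-!
# Row 262, road B (helper2), part 1: families of tuples and the strong resolution

* `mch s c`      : the chart ring of a family of tuples;  `Emb P s` : the family embeds `P`;
* `dom_le`, `fr L B`, `of_fr` : calculus of localisations;
* `coords_lpR`   : coordinates on the line over a point;
* `exists_res`   : a smooth model on which all tuples are regular, and which contains every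
  regular point of the product model.
-/

set_option autoImplicit false
set_option linter.style.haveILetI false

noncomputable section

namespace Crest.Agent.X262.Ms2

open Crest.Agent.X277 Crest.Agent.X277.Lef Crest.Agent.X277.AN.G1 Crest.Agent.X277.Cns
open Crest.Agent.X277.Res.Out (Coords lo IsFr)
open Crest.Agent.X277.Res.Log (lo_eq lp_O un_iff_v van_iff_v coords_of_crd)
open scoped KaehlerDifferential

variable {F E : Type} [Field F] [Algebra ℂ F] [Field E] [Algebra ℂ E]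

/-! ### local rings -/

section Loc

variable {L L' : LP F} {A B : Subalgebra ℂ F} {f g : F}

/-- an inclusion of local rings with residue field `ℂ` is a domination -/
theorem dom_le (h : L.O ≤ L'.O) : L.Dom L' := by
  refine ⟨h, fun f hf => ?_⟩
  have h1 : f - algebraMap ℂ F (L'.v f) ∈ L.O := sub_mem hf (algebraMap_mem _ _)
  by_contra h2
  have h3 : L.v (f - algebraMap ℂ F (L'.v f)) ≠ 0 := by
    rw [LP.v_sub hf (algebraMap_mem _ _), L.v_alg]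
    exact sub_ne_zero.2 (Ne.symm h2)
  exact LP.ne_of_inv_mem (h h1) (LP.ne_zero_of_ne h3) (h (L.inv_mem h3)) (LP.v_sub_v (h hf))

/-- the localisation of `B` at the centre of `L` -/
def fr (h : B ≤ L.O) : LP F := lpAt (L.hom.comp (Subalgebra.inclusion h))

theorem fr_dom (h : B ≤ L.O) : (fr h).Dom L := lpAt_dom _ h fun _ => rfl

theorem fr_of (h : B ≤ L.O) : (fr h).Of B := LP.of_lpAt _

theorem mem_fr (h : B ≤ L.O) (hf : f ∈ B) : f ∈ (fr h).O := (fr_of h).le hf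

theorem div_mem_fr (h : B ≤ L.O) (hf : f ∈ (fr h).O) (hg : g ∈ (fr h).O) (h0 : L.v g ≠ 0) :
    f / g ∈ (fr h).O := LP.div_mem hf (by rwa [← (fr_dom h).eq g hg])

theorem fr_eq (h : L.Of B) : fr h.le = L :=
  (eq_of_dom_of (fr_dom h.le) h (fr_of h.le).le)

/-- change of the ring which is localised -/
theorem of_fr (hA : L.Of A) (hB : B ≤ L.O) (h : A ≤ (fr hB).O) : L.Of B :=
  eq_of_dom_of (fr_dom hB) hA h ▸ fr_of hB

theorem der_mem {s : Set F} (h : L.Of (Algebra.adjoin ℂ s)) (D : Derivation ℂ F F)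
    (hs : ∀ a ∈ s, D a ∈ L.O) : ∀ f ∈ L.O, D f ∈ L.O := by
  have h1 : ∀ a ∈ Algebra.adjoin ℂ s, D a ∈ L.O := fun a ha =>
    Algebra.adjoin_induction (p := fun a _ => D a ∈ L.O) hs
      (fun c => by rw [Derivation.map_algebraMap]; exact zero_mem _)
      (fun a b _ _ h1 h2 => by rw [map_add]; exact add_mem h1 h2)
      (fun a b ha hb h1 h2 => by
        rw [Derivation.leibniz]
        exact add_mem (mul_mem (h.le ha) h2) (mul_mem (h.le hb) h1)) ha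
  intro f hf
  obtain ⟨a, ha, c, hc, h0, h2⟩ := h.loc f hf
  have h3 : D f = (D a - f * D c) / c := by
    rw [eq_div_iff (LP.ne_zero_of_ne h0), ← h2, Derivation.leibniz, smul_eq_mul, smul_eq_mul]
    ring
  rw [h3]
  exact LP.div_mem (sub_mem (h1 a ha) (mul_mem hf (h1 c hc))) h0

theorem coords_of {n : ℕ} {z : Fin n → F} (hz : L.Crd z) (d : Fin n → Derivation ℂ F F)
    (h1 : ∀ l, ∀ x ∈ L.O, d l x ∈ L.O) (h2 : ∀ l j, d l (z j) = if l = j then 1 else 0) :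
    Coords L.O fun l => z l - algebraMap ℂ F (L.v (z l)) := by
  refine ⟨fun l => van_iff_v.2 ⟨sub_mem (hz.mem l) (algebraMap_mem _ _), LP.v_sub_v (hz.mem l)⟩,
    fun f hf => ?_, d, h1, fun l j => ?_⟩
  · obtain ⟨c, hc, h⟩ := hz.gen f hf.1
    exact ⟨c, hc, by simpa only [(van_iff_v.1 hf).2, map_zero, zero_add] using h⟩
  · rw [map_sub, Derivation.map_algebraMap, sub_zero, h2]

/-- the local ring has coordinates -/
def Reg (L : LP F) : Prop := ∃ (n : ℕ) (z : Fin n → F), Coords L.O z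

theorem reg_lp {P : PModel ℂ F} (x : Pts P) : Reg (lp x) := by
  haveI := P.isFractionRing 0
  haveI : Algebra.EssFiniteType (P.A 0) F :=
    Algebra.EssFiniteType.of_isLocalization F (nonZeroDivisors (P.A 0))
  haveI := Algebra.EssFiniteType.comp ℂ (P.A 0) F
  obtain ⟨i, hi⟩ := exists_pat x
  obtain ⟨z, -, h1, h2⟩ := exists_crd_A (Module.finBasis F Ω[F⁄ℂ]) hi
  exact ⟨_, z, coords_of_crd (Module.finBasis F Ω[F⁄ℂ]) h2 h1⟩

variable {π : F →ₐ[ℂ] E} {τ : E} (h : IsRF π τ)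

theorem Reg.lpR (hL : Reg L) (c : ℂ) : Reg (lpR h L c) := by
  obtain ⟨n, z, hz⟩ := hL
  obtain ⟨d, hd, hd'⟩ := hz.der
  choose D hD using fun l => h.der (d l) 0
  obtain ⟨D₀, hD₀⟩ := h.der 0 1
  have h3 := lpR_of h (L := L) (c := c)
  have h4 := h3
  rw [ra_eq_adjoin] at h4
  refine ⟨_, _, coords_of (crd_lpR h (Res.Log.crd_of_coords hz))
    (Fin.cons D₀ D : Fin (n + 1) → Derivation ℂ E E) (fun l => der_mem h4 _ ?_) fun l j => ?_⟩
  · rintro _ (rfl | ⟨a, ha, rfl⟩) <;> refine Fin.cases ?_ (fun l => ?_) l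
    · rw [Fin.cons_zero, hD₀.2]; exact one_mem _
    · rw [Fin.cons_succ, (hD l).2]; exact zero_mem _
    · rw [Fin.cons_zero, hD₀.1]; simp
    · rw [Fin.cons_succ, (hD l).1]; exact h3.le (π_mem_ra (hd l a ha))
  · refine Fin.cases ?_ (fun l => ?_) l <;> refine Fin.cases ?_ (fun j => ?_) j
    · simp [hD₀.2]
    · simp [hD₀.1, (Fin.succ_ne_zero j).symm]
    · simp [(hD l).2]
    · simp [(hD l).1, hd']

theorem lpR_of' (hL : L.Of A) (c : ℂ) : (lpR h L c).Of (ra π A τ) := by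
  have h1 := lpR_of h (L := L) (c := c)
  have h2 : ra π A τ ≤ (lpR h L c).O := (ra_mono hL.le).trans h1.le
  refine of_fr h1 h2 (ra_le (fun f hf => ?_) (mem_fr h2 τ_mem_ra))
  obtain ⟨a, ha, b, hb, h0, h3⟩ := hL.loc f hf
  rw [show f = a / b by rw [← h3, mul_div_cancel_right₀ _ (LP.ne_zero_of_ne h0)], map_div₀]
  exact div_mem_fr h2 (mem_fr h2 (π_mem_ra ha)) (mem_fr h2 (π_mem_ra hb))
    (by rwa [← (dom_lpR h L c).eq b (hL.le hb)] at h0)

theorem π_mem_lpR {c : ℂ} (hf : f ∈ L.O) : π f ∈ (lpR h L c).O := (lpR_of h).le (π_mem_ra hf)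


/-- the local ring over `L` which contains `τ` -/
theorem lpR_le {M : LP E} (h1 : ∀ f ∈ L.O, π f ∈ M.O) (h2 : τ ∈ M.O) :
    (lpR h L (M.v τ)).O ≤ M.O :=
  (lpR_dom h (dom_le fun f hf => ⟨Algebra.mem_top, h1 f hf⟩) h2 rfl).le

end Loc

/-! ### families of tuples -/

section Fam

variable {J : Type} {io : J → Type} (s : ∀ j, io j → F)

/-- the chart ring of a family of tuples -/
def mch (c : ∀ j, io j) : Subalgebra ℂ F :=
  Algebra.adjoin ℂ {f | ∃ j i, f = s j i / s j (c j)}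

/-- the family of tuples embeds `P` in a product of projective spaces -/
def Emb (P : PModel ℂ F) : Prop :=
  ∀ x : Pts P, ∃ c, (∀ j, s j (c j) ≠ 0) ∧ (lp x).Of (mch s c)

variable {s} {c c' : ∀ j, io j} {L : LP F} {P : PModel ℂ F}

theorem div_mem_mch (c : ∀ j, io j) (j : J) (i : io j) : s j i / s j (c j) ∈ mch s c :=
  Algebra.subset_adjoin ⟨j, i, rfl⟩

theorem mch_le {B : Subalgebra ℂ F} (h : ∀ j i, s j i / s j (c j) ∈ B) : mch s c ≤ B :=
  Algebra.adjoin_le (by rintro _ ⟨j, i, rfl⟩; exact h j i)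

/-- change of the chart -/
theorem of_mch (h : L.Of (mch s c)) (hc : ∀ j, s j (c j) ≠ 0) (hc' : ∀ j, s j (c' j) ≠ 0)
    (h' : mch s c' ≤ L.O) : L.Of (mch s c') := by
  refine of_fr h h' (mch_le fun j i => ?_)
  rw [← div_div_div_cancel_right₀ (hc' j)]
  refine div_mem_fr h' (mem_fr h' (div_mem_mch c' j i)) (mem_fr h' (div_mem_mch c' j _))
    (LP.ne_of_inv_mem (h' (div_mem_mch c' j _)) (div_ne_zero (hc j) (hc' j)) ?_)
  rw [inv_div]
  exact h.le (div_mem_mch c j _)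

theorem Emb.gn (h : Emb s P) (j : J) : Gn P (s j) := fun x => by
  obtain ⟨c, h1, h2⟩ := h x
  exact ⟨c j, h1 j, fun i => h2.le (div_mem_mch c j i)⟩



/-- the chart `c'` of a valuation ring which dominates `L` is a chart of `L` -/
theorem mch_le_of_val (h : mch s c ≤ L.O) (hc : ∀ j, s j (c j) ≠ 0) (hc' : ∀ j, s j (c' j) ≠ 0)
    {V : ValuationSubring F} (h1 : ∀ f ∈ L.O, f ∈ V) (h2 : ∀ f ∈ L.O, Un V f → L.v f ≠ 0)
    (h3 : ∀ j i, s j i / s j (c' j) ∈ V) : mch s c' ≤ L.O := mch_le fun j i => by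
  rw [← div_div_div_cancel_right₀ (hc j)]
  refine LP.div_mem (h (div_mem_mch c j i)) (h2 _ (h (div_mem_mch c j _))
    ⟨div_ne_zero (hc' j) (hc j), h1 _ (h (div_mem_mch c j _)), ?_⟩)
  rw [inv_div]
  exact h3 j _


instance [Finite J] [∀ j, Finite (io j)] (c : ∀ j, io j) : Algebra.FiniteType ℂ (mch s c) :=
  (Subalgebra.fg_iff_finiteType _).1 ⟨(Set.finite_range fun p : Σ j, io j =>
    s p.1 p.2 / s p.1 (c p.1)).toFinset, by
      rw [Set.Finite.coe_toFinset, mch]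
      congr 1
      ext f
      exact ⟨fun ⟨p, h⟩ => ⟨p.1, p.2, h.symm⟩, fun ⟨j, i, h⟩ => ⟨⟨j, i⟩, h.symm⟩⟩⟩


theorem chI_prod [Fintype J] (hs : ∀ j i, s j i ≠ 0) (c : ∀ j, io j) :
    chI ℂ (fun c : ∀ j, io j => ∏ j, s j (c j)) c = mch s c := by
  classical
  refine le_antisymm (chI_le fun c' => ?_) (mch_le fun j i => ?_)
  · rw [← Finset.prod_div_distrib]
    exact prod_mem fun j _ => div_mem_mch c j _
  · have h1 := div_mem_chI ℂ (fun c : ∀ j, io j => ∏ j, s j (c j)) c (Function.update c j i)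
    rwa [← Finset.prod_div_distrib, Finset.prod_eq_single j
      (fun j' _ hj => by rw [Function.update_of_ne hj, div_self (hs _ _)]) (by simp),
      Function.update_self] at h1

/-- **resolution**: all tuples become regular, regular points of the product model are kept -/
theorem exists_res (hP : Res.PlusStmt ℂ) [Fintype J] [∀ j, Finite (io j)] [∀ j, Nonempty (io j)]
    (hs : ∀ j i, s j i ≠ 0) (hfr : ∀ c, IsFr (mch s c)) :
    ∃ B : PModel ℂ F, (∀ j, Gn B (s j)) ∧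
      ∀ (L : LP F) (c : ∀ j, io j), L.Of (mch s c) → Reg L → ∃ w : Pts B, lp w = L := by
  let w : (∀ j, io j) → F := fun c => ∏ j, s j (c j)
  have hch : ∀ i, chart ℂ (w ∘ eI _) i = mch s (eI _ i) := fun i =>
    (chart_comp w (eI _).surjective i).trans (chI_prod hs _)
  obtain ⟨B, n, -, hB⟩ := hP F _ (w ∘ eI _) ∅ 1
    (fun i => Finset.prod_ne_zero_iff.2 fun j _ => hs _ _) (hch 0 ▸ hfr _)
    fun j => ⟨0, fun a => by simp⟩
  have key : ∀ x : Pts B, ∃ (t : Fin n → F) (i₀ : _),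
      Res.PlusAt (w ∘ eI _) ∅ (lp x).O t i₀ ∧ mch s (eI _ i₀) ≤ (lp x).O := fun x => by
    obtain ⟨i, hi⟩ := exists_pat x
    obtain ⟨t, i₀, h⟩ := hB i (chr i x hi)
    rw [← lp_O hi] at h
    exact ⟨t, i₀, h, hch i₀ ▸ Algebra.adjoin_le (Set.range_subset_iff.2 h.dom)⟩
  refine ⟨B, fun j x => ?_, fun L c hL hR => ?_⟩
  · obtain ⟨t, i₀, -, h⟩ := key x
    exact ⟨eI _ i₀ j, hs _ _, fun i => h (div_mem_mch _ j i)⟩
  · obtain ⟨V, h1, h2⟩ := exists_val_dom L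
    obtain ⟨x, hx⟩ := exists_ov B (KV.of_le h1)
    obtain ⟨t, i₀, h3, h4⟩ := key x
    have h5 := mch_le_of_val hL.le (fun _ => hs _ _) (fun _ => hs _ _) h1
      (fun f hf => (h2 f hf).1) fun j i => hx _ (h4 (div_mem_mch (eI _ i₀) j i))
    have h6 := of_mch hL (fun _ => hs _ _) (fun _ => hs _ _) h5
    rw [← hch] at h4 h6
    have h7 : lo _ (L.hom.comp (Subalgebra.inclusion h6.le)) = L.O :=
      (lo_eq _).trans (congrArg LP.O (fr_eq h6))
    refine ⟨x, Res.Log.lp_ext ((h3.iso i₀ _ ?_ fun a => ⟨h4 a.2, fun h0 hu => ?_⟩).trans h7)⟩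
    · obtain ⟨m, z, hz⟩ := hR
      rw [h7]
      exact ⟨m, z, fun _ => none, hz, fun _ h => h.elim, fun _ h => h.elim⟩
    · exact (h2 a (h6.le a.2)).1 (hx.un (un_iff_v.1 hu)) h0

end Fam

theorem eq_of_le {P : PModel ℂ F} {x x' : Pts P} (h : (lp x).O ≤ (lp x').O) : x = x' :=
  eq_of_dom (dom_le h) (dom_refl _)

end Crest.Agent.X262.Ms2
end
end

-- ▼ part X262/Ms2/Tup
section

/-!
# Row 262, road B (helper2), part 3: the explicit tuples of the master space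

* `Dat K F E` : the data; `D.y j` (`j : Ix`) the tuples `A, P, G, U, C`; `tm1` : the tuple of the
  concave end;
* `D.up k`, `D.um p l` : the normal coordinates along the two ends; `D.cp`, `D.cm` : the charts;
* `D.Bas O i j` : the ratios which are regular everywhere; `mch_cp`, `mch_cm`.
-/

set_option autoImplicit false

noncomputable section

namespace Crest.Agent.X262.Ms2

open Crest.Agent.X277 Crest.Agent.X277.Lef Crest.Agent.X277.AN.G1
open Crest.Agent.X262.Gwb (Tup)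

/-- the explicit factors -/
inductive Ix : Type
  | A | P | G | U | C

instance : DecidableEq Ix := Classical.decEq _

instance : Fintype Ix := ⟨{.A, .P, .G, .U, .C}, fun j => by cases j <;> simp⟩

variable (K F E : Type) [Field K] [Algebra ℂ K] [Field F] [Algebra ℂ F] [Field E] [Algebra ℂ E]

/-- the data of the master space -/
structure Dat where
  /-- the base -/
  Y : PModel ℂ K
  /-- the trivial end -/
  Yp : PModel ℂ K
  /-- the concave end -/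
  Ym : PModel ℂ K
  /-- the projective space -/
  S : PModel ℂ F
  /-- the length of `a` -/
  n : ℕ
  /-- a tuple which is regular on `Y` -/
  a : Fin (n + 1) → K
  /-- a hyperplane section of `Yp` -/
  gp : K
  /-- a hyperplane section of `Ym` -/
  gm : K
  /-- the functions on `Y` -/
  κ : K →ₐ[ℂ] E
  /-- the functions on `S` -/
  σ : F →ₐ[ℂ] E
  /-- the fibre coordinate -/
  t : E

variable {K F E}

/-- the tuple `(0, a · y)` -/
def tm1 {n : ℕ} (a : Fin (n + 1) → K) (P : PModel ℂ K) : Tup K :=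
  ⟨Option (Fin (n + 1) × Fin (P.N + 1)), fun o => o.elim 0 fun p => a p.1 * P.y p.2⟩

namespace Dat

variable (D : Dat K F E)

/-- the coordinates of `S` -/
abbrev μ (k : Fin (D.S.N + 1)) : E := D.σ (D.S.y k)

/-- the index set of `a μ` -/
abbrev ι : Type := Fin (D.n + 1) × Fin (D.S.N + 1)

/-- the index set of `U` -/
abbrev ιU : Type := Fin (D.n + 1) × (D.ι ⊕ Fin (D.Ym.N + 1))

/-- the tuple `U = a · (a μ, t ym)` -/
def yU (q : D.ιU) : E :=
  D.κ (D.a q.1) * q.2.elim (fun p => D.κ (D.a p.1) * D.μ p.2) fun i => D.t * D.κ (D.Ym.y i)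

/-- the tuple `G = (t, gp μ)` -/
def yG (o : Option (Fin (D.S.N + 1))) : E := o.elim D.t fun k => D.κ D.gp * D.μ k

/-- the tuple `C = ((t gm) ^ 2, U ⊗ μ)` -/
def yC (o : Option (D.ιU × Fin (D.S.N + 1))) : E :=
  o.elim ((D.t * D.κ D.gm) ^ 2) fun q => D.yU q.1 * D.μ q.2

/-- the index sets -/
abbrev io : Ix → Type
  | .A => Fin (D.Y.N + 1)
  | .P => Option (Fin (D.Yp.N + 1) × Fin (D.S.N + 1))
  | .G => Option (Fin (D.S.N + 1))
  | .U => D.ιU
  | .C => Option (D.ιU × Fin (D.S.N + 1))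

instance (j : Ix) : Finite (D.io j) := by cases j <;> infer_instance

instance (j : Ix) : Nonempty (D.io j) := by cases j <;> infer_instance

/-- the coordinates -/
def y : ∀ j, D.io j → E
  | .A => fun i => D.κ (D.Y.y i)
  | .P => fun o => o.elim D.t fun p => D.κ (D.Yp.y p.1) * D.μ p.2
  | .G => D.yG
  | .U => D.yU
  | .C => D.yC

/-- the normal coordinate along the trivial end -/
def up (k : Fin (D.S.N + 1)) : E := D.t / (D.κ D.gp * D.μ k)

/-- the normal coordinate along the concave end -/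
def um (p : D.ι) (l : Fin (D.Ym.N + 1)) : E :=
  D.yU (p.1, .inr l) * D.μ p.2 / (D.t * D.κ D.gm) ^ 2

/-- the chart along the trivial end -/
def cp (i : Fin (D.Y.N + 1)) (p : D.ι) (l : Fin (D.Yp.N + 1)) : ∀ j, D.io j
  | .A => i
  | .P => some (l, p.2)
  | .G => some p.2
  | .U => (p.1, .inl p)
  | .C => some ((p.1, .inl p), p.2)

/-- the chart along the contracted concave end -/
def cm (i : Fin (D.Y.N + 1)) (j : Fin (D.n + 1)) (l : Fin (D.Ym.N + 1)) : ∀ j, D.io j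
  | .A => i
  | .P => none
  | .G => none
  | .U => (j, .inr l)
  | .C => none

/-- nothing vanishes -/
structure Ne : Prop where
  a : ∀ j, D.a j ≠ 0
  gp : D.gp ≠ 0
  gm : D.gm ≠ 0
  t : D.t ≠ 0

/-- the ratios which are regular at every point -/
structure Bas (O : Subalgebra ℂ E) (i : Fin (D.Y.N + 1)) (j : Fin (D.n + 1)) : Prop where
  A : ∀ l, D.κ (D.Y.y l / D.Y.y i) ∈ O
  a : ∀ l, D.κ (D.a l / D.a j) ∈ O
  gpm : ∀ l, D.κ (D.gp * D.Ym.y l / D.a j) ∈ O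
  pgm : ∀ l, D.κ (D.Yp.y l * D.gm / D.a j) ∈ O
  gg : D.κ (D.gp * D.gm / D.a j) ∈ O

variable {D} {O : Subalgebra ℂ E} {i : Fin (D.Y.N + 1)} {p : D.ι} {j : Fin (D.n + 1)}

theorem μ_ne (k : Fin (D.S.N + 1)) : D.μ k ≠ 0 := (map_ne_zero _).2 (D.S.y_ne k)

theorem κ_ne {f : K} (hf : f ≠ 0) : D.κ f ≠ 0 := (map_ne_zero _).2 hf

theorem Ne.yU (h : D.Ne) (q : D.ιU) : D.yU q ≠ 0 := by
  obtain ⟨p, q | q⟩ := q
  exacts [mul_ne_zero (κ_ne (h.a p)) (mul_ne_zero (κ_ne (h.a _)) (μ_ne _)),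
    mul_ne_zero (κ_ne (h.a p)) (mul_ne_zero h.t (κ_ne (D.Ym.y_ne q)))]

theorem Ne.tg (h : D.Ne) : D.t * D.κ D.gm ≠ 0 := mul_ne_zero h.t (κ_ne h.gm)

theorem Ne.yG (h : D.Ne) (o : Option (Fin (D.S.N + 1))) : D.yG o ≠ 0 := by
  cases o
  exacts [h.t, mul_ne_zero (κ_ne h.gp) (μ_ne _)]

theorem Ne.yC (h : D.Ne) (o : Option (D.ιU × Fin (D.S.N + 1))) : D.yC o ≠ 0 := by
  cases o
  exacts [pow_ne_zero _ h.tg, mul_ne_zero (h.yU _) (μ_ne _)]

theorem Ne.y (h : D.Ne) (j : Ix) (l : D.io j) : D.y j l ≠ 0 := by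
  cases j
  · exact κ_ne (D.Y.y_ne l)
  · cases l
    exacts [h.t, mul_ne_zero (κ_ne (D.Yp.y_ne _)) (μ_ne _)]
  · exact h.yG l
  · exact h.yU l
  · exact h.yC l

theorem Bas.cp_U (h : D.Bas O i p.1) (hn : D.Ne) (hS : ∀ k, D.μ k / D.μ p.2 ∈ O)
    (hu : D.up p.2 ∈ O) (q : D.ιU) : D.yU q / D.yU (p.1, .inl p) ∈ O := by
  have e2 := κ_ne (D := D) hn.gp
  have e3 := κ_ne (D := D) (hn.a p.1)
  have e4 := μ_ne (D := D) p.2
  obtain ⟨q, q' | l⟩ := q
  · convert mul_mem (h.a q) (mul_mem (h.a q'.1) (hS q'.2)) using 1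
    simp only [yU, Sum.elim_inl, map_div₀]
    field_simp
  · convert mul_mem (h.a q) (mul_mem hu (h.gpm l)) using 1
    simp only [yU, up, Sum.elim_inl, Sum.elim_inr, map_div₀, map_mul]
    field_simp

/-- the chart ring along the trivial end -/
theorem mch_cp (h : D.Bas O i p.1) (hn : D.Ne) (hS : ∀ k, D.μ k / D.μ p.2 ∈ O)
    {l : Fin (D.Yp.N + 1)} (h1 : ∀ l', D.κ (D.Yp.y l' / D.Yp.y l) ∈ O)
    (h2 : D.κ (D.gp / D.Yp.y l) ∈ O) (hu : D.up p.2 ∈ O) : mch D.y (D.cp i p l) ≤ O := by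
  have e2 := κ_ne (D := D) hn.gp
  have e3 := κ_ne (D := D) (hn.a p.1)
  have e4 := μ_ne (D := D) p.2
  have e5 := κ_ne (D := D) (D.Yp.y_ne l)
  refine mch_le fun j q => ?_
  cases j
  · exact map_div₀ D.κ _ _ ▸ h.A q
  · rcases q with _ | q
    · convert mul_mem hu h2 using 1
      simp only [y, cp, up, Option.elim, map_div₀]
      field_simp
    · convert mul_mem (h1 q.1) (hS q.2) using 1
      simp only [y, cp, Option.elim, map_div₀]
      field_simp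
  · rcases q with _ | q
    · exact hu
    · exact (mul_div_mul_left (D.μ q) (D.μ p.2) e2).symm ▸ hS q
  · exact h.cp_U hn hS hu q
  · rcases q with _ | q
    · convert pow_mem (mul_mem hu h.gg) 2 using 1
      simp only [y, cp, up, yC, yU, Option.elim, Sum.elim_inl, map_div₀, map_mul]
      field_simp
    · have h3 := mul_mem (h.cp_U hn hS hu q.1) (hS q.2)
      rwa [← mul_div_mul_comm] at h3

theorem yU_inl (hn : D.Ne) (j : Fin (D.n + 1)) (l : Fin (D.Ym.N + 1)) (q : Fin (D.n + 1))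
    (q' : D.ι) : D.yU (q, .inl q') / D.yU (j, .inr l) = D.um (j, q'.2) l *
      (D.κ (D.a q / D.a j) * D.κ (D.a q'.1 / D.a j) * D.κ (D.gm / D.Ym.y l) ^ 2) := by
  have e1 := hn.t
  have e2 := κ_ne (D := D) hn.gm
  have e3 := κ_ne (D := D) (hn.a j)
  have e5 := κ_ne (D := D) (D.Ym.y_ne l)
  simp only [yU, um, Sum.elim_inl, Sum.elim_inr, map_div₀]
  field_simp

theorem yU_inr (hn : D.Ne) (j : Fin (D.n + 1)) (l : Fin (D.Ym.N + 1)) (q : Fin (D.n + 1))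
    (l' : Fin (D.Ym.N + 1)) : D.yU (q, .inr l') / D.yU (j, .inr l) =
      D.κ (D.a q * D.Ym.y l' / (D.a j * D.Ym.y l)) := by
  have e1 := hn.t
  have e3 := κ_ne (D := D) (hn.a j)
  have e5 := κ_ne (D := D) (D.Ym.y_ne l)
  simp only [yU, Sum.elim_inr, map_div₀, map_mul]
  field_simp

theorem Bas.cm_U (h : D.Bas O i j) (hn : D.Ne) {l : Fin (D.Ym.N + 1)}
    (h1 : ∀ l', D.κ (D.Ym.y l' / D.Ym.y l) ∈ O) (h2 : D.κ (D.gm / D.Ym.y l) ∈ O)
    (hu : ∀ k, D.um (j, k) l ∈ O) (q : D.ιU) : D.yU q / D.yU (j, .inr l) ∈ O := by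
  obtain ⟨q, q' | l'⟩ := q
  · rw [yU_inl hn]
    exact mul_mem (hu _) (mul_mem (mul_mem (h.a q) (h.a q'.1)) (pow_mem h2 2))
  · rw [yU_inr hn, mul_div_mul_comm, map_mul]
    exact mul_mem (h.a q) (h1 l')

theorem inv_t (hn : D.Ne) (p : D.ι) (l : Fin (D.Ym.N + 1)) (f : K) :
    D.κ f * D.μ p.2 / D.t = D.um p l * (D.κ (f * D.gm / D.a p.1) * D.κ (D.gm / D.Ym.y l)) := by
  have e1 := hn.t
  have e2 := κ_ne (D := D) hn.gm
  have e3 := κ_ne (D := D) (hn.a p.1)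
  have e5 := κ_ne (D := D) (D.Ym.y_ne l)
  simp only [yU, um, Sum.elim_inr, map_div₀, map_mul]
  field_simp

theorem um_eq (hn : D.Ne) (p : D.ι) (l : Fin (D.Ym.N + 1)) :
    D.um p l = D.μ p.2 / (D.t / D.κ (D.a p.1 * D.Ym.y l / D.gm ^ 2)) := by
  have e1 := hn.t
  have e2 := κ_ne (D := D) hn.gm
  have e3 := κ_ne (D := D) (hn.a p.1)
  have e5 := κ_ne (D := D) (D.Ym.y_ne l)
  simp only [yU, um, Sum.elim_inr, map_div₀, map_mul, map_pow]
  field_simp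

theorem yC_div (hn : D.Ne) (j : Fin (D.n + 1)) (l : Fin (D.Ym.N + 1)) (q : D.ιU)
    (k : Fin (D.S.N + 1)) :
    D.yC (some (q, k)) / D.yC none = D.um (j, k) l * (D.yU q / D.yU (j, .inr l)) := by
  have e1 := hn.tg
  have e2 := hn.yU (j, .inr l)
  simp only [yC, um, Option.elim]
  field_simp

/-- the chart ring along the contracted concave end -/
theorem mch_cm (h : D.Bas O i j) (hn : D.Ne) {l : Fin (D.Ym.N + 1)}
    (h1 : ∀ l', D.κ (D.Ym.y l' / D.Ym.y l) ∈ O) (h2 : D.κ (D.gm / D.Ym.y l) ∈ O)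
    (hu : ∀ k, D.um (j, k) l ∈ O) : mch D.y (D.cm i j l) ≤ O := by
  have key : ∀ (f : K) (k : Fin (D.S.N + 1)), D.κ (f * D.gm / D.a j) ∈ O →
      D.κ f * D.μ k / D.t ∈ O := fun f k hf =>
    (inv_t hn (j, k) l f).symm ▸ mul_mem (hu k) (mul_mem hf h2)
  refine mch_le fun j q => ?_
  cases j
  · exact map_div₀ D.κ _ _ ▸ h.A q
  · rcases q with _ | q
    · exact (div_self hn.t).symm ▸ one_mem O
    · exact key _ _ (h.pgm q.1)
  · rcases q with _ | q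
    · exact (div_self hn.t).symm ▸ one_mem O
    · exact key _ _ h.gg
  · exact h.cm_U hn h1 h2 hu q
  · rcases q with _ | q
    · exact (div_self (pow_ne_zero 2 hn.tg)).symm ▸ one_mem O
    · exact (yC_div hn j l q.1 q.2).symm ▸ mul_mem (hu _) (h.cm_U hn h1 h2 hu q.1)

end Dat

end Crest.Agent.X262.Ms2
end
private theorem rz_9f9121c560 : type_of% @_root_.Crest.Agent.X262.Ms2.Dat.cm.eq_1 := @_root_.Crest.Agent.X262.Ms2.Dat.cm.eq_1 -- L123
private theorem rz_15a15d7c43 : type_of% @_root_.Crest.Agent.X262.Ms2.Dat.cp.eq_1 := @_root_.Crest.Agent.X262.Ms2.Dat.cp.eq_1 -- L115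
private theorem rz_effd1265a3 : type_of% @_root_.Crest.Agent.X262.Ms2.Dat.y.eq_def := @_root_.Crest.Agent.X262.Ms2.Dat.y.eq_def -- L100
private theorem rz_3ae9fd0dba : type_of% @_root_.Crest.Agent.X262.Ms2.Dat.y.eq_1 := @_root_.Crest.Agent.X262.Ms2.Dat.y.eq_1 -- L100
end

-- ▼ part X262/Ms11/Bor0
section

/-!
# Row 262, road B, Borel spaces (helper11), part 0: the fields and the model

`F = K(τ)` carries the action `τ ↦ c τ`; `S` is a model of `M`; `E₀ = Frac (K ⊗ M)`, `L = E₀(t)`.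

* `isPF_rf`     : `K(τ)` and `M` are independent in `(K ⊗ M)(t)`;
* `BF`          : the data; `D.β : M → L`; `D.al hc : F → L`, `τ ↦ β c * t`; `D.pf_al`;
* `D.wv a w`    : the family `a j τ ^ w j` of weight vectors; `D.bt S a w` its Borel family;
* `D.mdl S P hP`: the Borel space of a model `P` whose coordinates are weight vectors.
-/

set_option autoImplicit false
set_option linter.unusedSectionVars false
set_option linter.style.haveILetI false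

open Polynomial
open scoped TensorProduct

noncomputable section

namespace Crest.Agent.X262.Ms11

open Crest.Agent.X277.Lef Crest.Agent.X277.AN.G1 Crest.Agent.X277.Cns
open Crest.Agent.R274.Prod1_134 Crest.Agent.R274.Prod4_134

section Fields

variable {k K F M E₀ L : Type} [Field k] [Field K] [Algebra k K] [Field F] [Algebra k F]
  [Field M] [Algebra k M] [Field E₀] [Algebra k E₀] [Field L] [Algebra k L]

theorem evp_comp (ρ : E₀ →ₐ[k] L) (α₀ : K →ₐ[k] E₀) (t : L) (p : K[X]) :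
    evp (ρ.comp α₀) t p = evp ρ t (p.map (α₀ : K →+* E₀)) := by
  rw [evp_apply, evp_apply, eval₂_map]
  rfl

theorem evp_comp_inj {ρ : E₀ →ₐ[k] L} {t : L} (h : IsRF ρ t) (α₀ : K →ₐ[k] E₀) :
    Function.Injective (evp (ρ.comp α₀) t) := by
  intro p q hpq
  rw [evp_comp, evp_comp] at hpq
  exact map_injective _ (α₀ : K →+* E₀).injective (h.inj hpq)

/-- `K(τ)` and `M` generate `(K ⊗ M)(t)` freely -/
theorem isPF_rf {π : K →ₐ[k] F} {τ : F} (h : IsRF π τ) {α₀ : K →ₐ[k] E₀} {β₀ : M →ₐ[k] E₀}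
    (h₀ : IsPF α₀ β₀) {ρ : E₀ →ₐ[k] L} {t : L} (hL : IsRF ρ t) {α : F →ₐ[k] L}
    (h1 : ∀ a, α (π a) = ρ (α₀ a)) (h2 : α τ = t) : IsPF α (ρ.comp β₀) := by
  classical
  have hev : ∀ p, α (evp π τ p) = evp ρ t (p.map (α₀ : K →+* E₀)) := by
    intro p
    rw [map_evp, h2, ← evp_comp]
    congr 2
    exact AlgHom.ext h1
  refine isPF_of_isFr ⟨(injective_iff_map_eq_zero _).2 fun z hz => ?_, fun x => ?_⟩
  · let b := Module.Basis.ofVectorSpace k M
    obtain ⟨c, rfl⟩ := TensorProduct.eq_repr_basis_right b z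
    choose p q hq hpq using fun i => h.isFr.frac' (c i)
    have hq' : ∀ i, evp π τ (q i) ≠ 0 := fun i => h.isFr.map_ne (hq i)
    let r : _ → K[X] := fun i => p i * ∏ j ∈ c.support.erase i, q j
    have hr : ∀ i ∈ c.support, evp π τ (r i) = c i * evp π τ (∏ j ∈ c.support, q j) := by
      intro i hi
      rw [← Finset.mul_prod_erase _ _ hi, map_mul, map_mul, hpq i, ← mul_assoc,
        div_mul_cancel₀ _ (hq' i)]
    have hz1 : ∑ i ∈ c.support, α (c i) * ρ (β₀ (b i)) = 0 := by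
      simpa [Finsupp.sum, map_sum] using hz
    have hz2 : evp ρ t (∑ i ∈ c.support, (r i).map (α₀ : K →+* E₀) * C (β₀ (b i))) = 0 := by
      rw [map_sum]
      have : ∀ i ∈ c.support, evp ρ t ((r i).map (α₀ : K →+* E₀) * C (β₀ (b i))) =
          α (evp π τ (∏ j ∈ c.support, q j)) * (α (c i) * ρ (β₀ (b i))) := by
        intro i hi
        rw [map_mul, evp_C, ← hev, hr i hi, map_mul]
        ring
      rw [Finset.sum_congr rfl this, ← Finset.mul_sum, hz1, mul_zero]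
    have hz3 := hL.eq_zero hz2
    have hz4 : ∀ m, ∀ i ∈ c.support, (r i).coeff m = 0 := by
      intro m i hi
      have h3 := congrArg (fun f => f.coeff m) hz3
      simp only [finsetSum_coeff, coeff_mul_C, coeff_map, coeff_zero] at h3
      have h4 : (∑ i ∈ c.support, (r i).coeff m ⊗ₜ[k] b i : K ⊗[k] M) = 0 := by
        apply h₀.inj
        rw [map_sum, map_zero, ← h3]
        simp
      have h5 := congrArg (fun z => TensorProduct.equivFinsuppOfBasisRight b z i) h4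
      simpa [TensorProduct.equivFinsuppOfBasisRight_apply_tmul_apply, Finsupp.single_apply,
        hi] using h5
    have hz5 : ∀ i ∈ c.support, c i = 0 := by
      intro i hi
      have h6 : r i = 0 := Polynomial.ext fun m => hz4 m i hi
      have h7 := hr i hi
      rw [h6, map_zero, map_prod] at h7
      exact (mul_eq_zero.1 h7.symm).resolve_right (Finset.prod_ne_zero_iff.2 fun j _ => hq' j)
    exact Finset.sum_eq_zero fun i hi => by simp [hz5 i hi]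
  · let g := Algebra.TensorProduct.productMap α (ρ.comp β₀)
    have h3 := hL.mem_subfield (Subfield.closure (g.range : Set L))
      (fun e => pf_mem_subfield h₀ ((Subfield.closure (g.range : Set L)).comap (ρ : E₀ →+* L))
        (fun a => Subfield.subset_closure ⟨π a ⊗ₜ 1, by simp [g, h1]⟩)
        (fun m => Subfield.subset_closure ⟨1 ⊗ₜ m, by simp [g]⟩) e)
      (Subfield.subset_closure ⟨τ ⊗ₜ 1, by simp [g, h2]⟩) x
    obtain ⟨y, hy, z, hz, rfl⟩ := Subfield.mem_closure_iff.1 h3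
    have h4 : Subring.closure (g.range : Set L) = g.range.toSubring :=
      Subring.closure_eq g.range.toSubring
    rw [h4] at hy hz
    obtain ⟨a, rfl⟩ := hy
    obtain ⟨a', rfl⟩ := hz
    exact ⟨a, a', rfl⟩

end Fields

/-- the fields of a Borel construction -/
structure BF (K F M E₀ L : Type) [Field K] [Algebra ℂ K] [Field F] [Algebra ℂ F] [Field M]
    [Algebra ℂ M] [Field E₀] [Algebra ℂ E₀] [Field L] [Algebra ℂ L] where
  /-- the invariants -/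
  π : K →ₐ[ℂ] F
  /-- the coordinate of weight one -/
  τ : F
  rf : IsRF π τ
  /-- first factor -/
  α₀ : K →ₐ[ℂ] E₀
  /-- second factor -/
  β₀ : M →ₐ[ℂ] E₀
  pf : IsPF α₀ β₀
  /-- the invariants of the Borel field -/
  ρ : E₀ →ₐ[ℂ] L
  /-- the coordinate of weight one of the Borel field -/
  t : L
  rfL : IsRF ρ t

/-- the index set of a Borel family -/
abbrev BI {ι : Type} (w : ι → ℕ) (m : ℕ) : Type := Σ j : ι, Fin (w j) → Fin (m + 1)

instance {ι : Type} [Nonempty ι] (w : ι → ℕ) (m : ℕ) : Nonempty (BI w m) :=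
  ⟨⟨Classical.arbitrary ι, fun _ => 0⟩⟩

variable {K F M E₀ L : Type} [Field K] [Algebra ℂ K] [Field F] [Algebra ℂ F] [Field M]
  [Algebra ℂ M] [Field E₀] [Algebra ℂ E₀] [Field L] [Algebra ℂ L]


namespace BF

variable (D : BF K F M E₀ L)

/-- the base -/
def β : M →ₐ[ℂ] L := D.ρ.comp D.β₀

/-- the invariants -/
def κ : K →ₐ[ℂ] L := D.ρ.comp D.α₀



theorem rf_mul {c : M} (hc : c ≠ 0) : IsRF D.ρ (D.β c * D.t) :=
  D.rfL.scale ((_root_.map_ne_zero D.β₀).2 hc)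

/-- the embedding `τ ↦ c t` -/
def al {c : M} (hc : c ≠ 0) : F →ₐ[ℂ] L :=
  D.rf.lift D.κ (D.β c * D.t) (evp_comp_inj (D.rf_mul hc) D.α₀)

@[simp] theorem al_π {c : M} (hc : c ≠ 0) (a : K) : D.al hc (D.π a) = D.κ a := D.rf.lift_π _ _ _ a

@[simp] theorem al_τ {c : M} (hc : c ≠ 0) : D.al hc D.τ = D.β c * D.t := D.rf.lift_t _ _ _


section Fam

variable {ι : Type} (a : ι → K) (w : ι → ℕ)

/-- a family of weight vectors -/
def wv (j : ι) : F := D.π (a j) * D.τ ^ w j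

variable (S : PModel ℂ M)



/-- the Borel family -/
def bt (p : BI w S.N) : L := D.κ (a p.1) * D.t ^ w p.1 * D.β (∏ l, S.y (p.2 l))









end Fam

section Model

variable (S : PModel ℂ M) (P : PModel ℂ F) {a : Fin (P.N + 1) → K} {w : Fin (P.N + 1) → ℕ}
  (hP : P.y = D.wv a w)

include hP












end Model

end BF

end Crest.Agent.X262.Ms11
end
end

-- ▼ part X262/Ms2/Ctx
section

/-!
# Row 262, road B (helper2), part 5: local study of the explicit tuples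

* `Cone S F'`, `Cone.exists_vtx`, `Cone.exists_φ` : the cone over a projective space;
* `D.Ok α β ρ` : the hypotheses; `Ok.plus`, `Ok.vert` : recognition of the points of the ends;
* `Ok.of_plus`, `Ok.exists_vx` : the two families of regular points; `Ok.h2`, `Ok.isFr`.
-/

set_option autoImplicit false

noncomputable section

namespace Crest.Agent.X262.Ms2

open Crest.Agent.X277 Crest.Agent.X277.Lef Crest.Agent.X277.AN.G1 Crest.Agent.X277.BD
  Crest.Agent.X277.BD.Br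
open Crest.Agent.X277.Cns (IsRF lpR lpP Gn Un KV cm ra Ov)
open Crest.Agent.X277.Res.Out (IsFr)
open Crest.Agent.R274.Prod1_134 (IsPF)

variable {K F M E F' : Type} [Field K] [Algebra ℂ K] [Field F] [Algebra ℂ F] [Field M]
  [Algebra ℂ M] [Field E] [Algebra ℂ E] [Field F'] [Algebra ℂ F']

/-! ### general lemmas -/

section Gen

variable {P Q : PModel ℂ K} {L N : LP E}

theorem of_self (L : LP E) : L.Of L.O :=
  ⟨le_rfl, fun f hf => ⟨f, hf, 1, one_mem _, by simp, mul_one f⟩⟩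

theorem exists_pt (π : K →ₐ[ℂ] E) {i : Fin (P.N + 1)} (h : ∀ j, π (P.y j / P.y i) ∈ N.O) :
    ∃ x ∈ pat P i, ∀ f ∈ (lp x).O, π f ∈ N.O := by
  obtain ⟨x, hx, h1⟩ := AN.G1.exists_dom (i := i) (N.comap (Plc.ofHom π))
    fun j => ⟨Algebra.mem_top, h j⟩
  exact ⟨x, hx, fun f hf => (h1.le hf).2⟩

theorem v_hom {L : LP K} {π : K →ₐ[ℂ] E} (h : ∀ f ∈ L.O, π f ∈ N.O) {f : K} (hf : f ∈ L.O) :
    N.v (π f) = L.v f :=
  (dom_le (L' := N.comap (Plc.ofHom π)) fun g hg => ⟨Algebra.mem_top, h g hg⟩).eq f hf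

theorem le_of_gen {s : Set E} (h : L.Of (Algebra.adjoin ℂ s)) (h1 : ∀ a ∈ s, a ∈ N.O)
    (h2 : ∀ a ∈ s, N.v a = L.v a) : L.O ≤ N.O :=
  (Cns.of_dom h (Algebra.adjoin_le h1) (Cns.v_eq_of_adjoin
    (fun _ ha => h.le (Algebra.subset_adjoin ha)) h1 h2)).le

theorem At.up {x : Pts P} {x' : Pts Q} (h : (lp x).O ≤ (lp x').O) {a : BD ℂ K} {g : K}
    (hg : At a x g) : At a x' g := fun V hV => hg V fun f hf => hV f (h hf)

theorem exists_under (h : oP P ∈ On Q) (x : Pts Q) : ∃ y : Pts P, (lp y).O ≤ (lp x).O := by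
  obtain ⟨g, hg⟩ := h x
  obtain ⟨i, hi⟩ := hg.exists_mxf ⟨0, P.y_ne 0⟩
  obtain ⟨y, -, hy⟩ := AN.G1.exists_dom (i := i) (lp x) fun j => hi.div_mem (y_mem_Sec j)
  exact ⟨y, hy.le⟩

theorem sec_val {g : K} (hg : g ∈ (oP P).Sec) (π : K →ₐ[ℂ] E) {V : ValuationSubring E}
    (hV : KV ℂ V) : ∃ l, π (g / P.y l) ∈ V := by
  obtain ⟨l, hl, -⟩ := exists_chart (P := P) ⟨cm π V, hV.cm π⟩
  exact ⟨l, (RZ.le_iff (V := ⟨cm π V, hV.cm π⟩) (P.y_ne l)).1 (hl ▸ hg _)⟩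

theorem mem_prod {α : K →ₐ[ℂ] M} {β : F →ₐ[ℂ] M} (pf : IsPF α β) {S : PModel ℂ F}
    (z : Pts (Cns.prod P S pf)) :
    (∀ f ∈ (lp ((Cns.fst P S pf).map z)).O, α f ∈ (lp z).O) ∧
      ∀ f ∈ (lp ((Cns.snd P S pf).map z)).O, β f ∈ (lp z).O :=
  ⟨fun _ hf => Cns.hom_mem (Cns.fst_p P S pf) hf, fun _ hf => Cns.hom_mem (Cns.snd_p P S pf) hf⟩

/-- the local ring of a point of a product, inside a local ring of an extension -/
theorem mk_le {α : K →ₐ[ℂ] M} {β : F →ₐ[ℂ] M} (pf : IsPF α β) {S : PModel ℂ F} (ρ : M →ₐ[ℂ] E)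
    {x : Pts P} {s : Pts S} (h1 : ∀ f ∈ (lp x).O, ρ (α f) ∈ N.O)
    (h2 : ∀ f ∈ (lp s).O, ρ (β f) ∈ N.O) : ∀ f ∈ (lp (Cns.mk pf x s)).O, ρ f ∈ N.O := by
  intro f hf
  rw [Cns.lp_mk] at hf
  exact ((Cns.lpP_dom pf (M := N.comap (Plc.ofHom ρ))
    (dom_le fun g hg => ⟨Algebra.mem_top, Algebra.mem_top, h1 g hg⟩)
    (dom_le fun g hg => ⟨Algebra.mem_top, Algebra.mem_top, h2 g hg⟩)).le hf).2

end Gen

/-! ### the cone -/

variable (F') in
/-- a projective space with one more coordinate -/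
structure Cone (S : PModel ℂ F) where
  /-- the model -/
  P : PModel ℂ F'
  /-- the functions on the base -/
  π : F →ₐ[ℂ] F'
  /-- the new coordinate -/
  τ : F'
  /-- the numbering -/
  e : Option (Fin (S.N + 1)) ≃ Fin (P.N + 1)
  rf : IsRF π τ
  y0 : P.y (e none) = τ
  y1 : ∀ k, P.y (e (some k)) = π (S.y k)

namespace Cone

variable {S : PModel ℂ F} (c : Cone F' S)

theorem exists_vtx : ∃ p ∈ pat c.P (c.e none), ∀ k, ev (c.π (S.y k) / c.τ) p = 0 := by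
  obtain ⟨s⟩ : Nonempty (Pts S) := inferInstance
  obtain ⟨k₀, hk⟩ := exists_pat s
  have h := c.rf.inv.scale (S.y_ne k₀)
  have h1 : ∀ k, c.π (S.y k) / c.τ = c.π (S.y k / S.y k₀) * (c.π (S.y k₀) * c.τ⁻¹) := fun k => by
    rw [← mul_assoc, ← map_mul, div_mul_cancel₀ _ (S.y_ne k₀), div_eq_mul_inv]
  have h2 : ∀ k, c.π (S.y k) / c.τ ∈ (lpR h (lp s) 0).O := fun k =>
    h1 k ▸ mul_mem (π_mem_lpR h (y_mem hk k)) (Cns.τ_mem_lpR h)
  obtain ⟨p, hp, h3⟩ := AN.G1.exists_dom (P := c.P) (i := c.e none) (lpR h (lp s) 0) fun j => by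
    obtain ⟨_ | k, rfl⟩ := c.e.surjective j
    · rw [div_self (c.P.y_ne _)]
      exact one_mem _
    · rw [c.y0, c.y1]
      exact h2 k
  refine ⟨p, hp, fun k => ?_⟩
  have h4 := y_mem hp (c.e (some k))
  rw [c.y0, c.y1] at h4
  refine (h3.eq _ h4).symm.trans ?_
  rw [h1, LP.v_mul _ (π_mem_lpR h (y_mem hk k)) (Cns.τ_mem_lpR h), Cns.lpR_v_τ, mul_zero]

theorem exists_φ {α : K →ₐ[ℂ] M} {β : F →ₐ[ℂ] M} (pf : IsPF α β) {ρ : M →ₐ[ℂ] E} {t : E}
    (h : IsRF ρ t) : ∃ φ : F' →ₐ[ℂ] E, (∀ f, φ (c.π f) = ρ (β f)) ∧ φ c.τ = t ∧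
      IsPF (ρ.comp α) φ :=
  ⟨c.rf.lift (ρ.comp β) t (Ms11.evp_comp_inj h β), c.rf.lift_π _ _ _, c.rf.lift_t _ _ _,
    Cns.isPF_symm (Ms11.isPF_rf c.rf (Cns.isPF_symm pf) h (c.rf.lift_π _ _ _)
      (c.rf.lift_t _ _ _))⟩

end Cone

/-! ### the hypotheses -/

namespace Dat

/-- the hypotheses on the data -/
structure Ok (D : Dat K F E) (α : K →ₐ[ℂ] M) (β : F →ₐ[ℂ] M) (ρ : M →ₐ[ℂ] E) : Prop where
  pf : IsPF α β
  rf : IsRF ρ D.t
  κ : ∀ f, D.κ f = ρ (α f)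
  σ : ∀ f, D.σ f = ρ (β f)
  a : ∀ j, D.a j ≠ 0
  gp : D.gp ≠ 0 ∧ D.gp ∈ (oP D.Yp).Sec
  gm : D.gm ≠ 0 ∧ D.gm ∈ (oP D.Ym).Sec
  hp : oP D.Y ∈ On D.Yp
  hm : oP D.Y ∈ On D.Ym
  gn : Gn D.Y D.a
  le : oP D.Yp + oP D.Ym ≤ mxf ℂ D.a

variable {D : Dat K F E} {α : K →ₐ[ℂ] M} {β : F →ₐ[ℂ] M} {ρ : M →ₐ[ℂ] E} (h : D.Ok α β ρ)
  {N : LP E}

namespace Ok

include h

theorem ne : D.Ne := ⟨h.a, h.gp.1, h.gm.1, h.rf.t_ne⟩

theorem exists_bas {Q : PModel ℂ K} (hQ : oP D.Y ∈ On Q) (x : Pts Q) : ∃ i j,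
    At (mxf ℂ D.a) x (D.a j) ∧
      ∀ O : Subalgebra ℂ E, (∀ f ∈ (lp x).O, D.κ f ∈ O) → D.Bas O i j := by
  obtain ⟨y, hy⟩ := exists_under hQ x
  obtain ⟨i, hi⟩ := exists_pat y
  obtain ⟨j, h1, h2⟩ := h.gn y
  have h3 : At (mxf ℂ D.a) x (D.a j) := At.up hy (at_mxf h1 h2)
  have h4 : ∀ {f g : K}, f ∈ (oP D.Yp).Sec → g ∈ (oP D.Ym).Sec → f * g / D.a j ∈ (lp x).O :=
    fun hf hg => h3.div_mem (Sec_mono h.le (mul_mem_Sec hf hg))
  exact ⟨i, j, h3, fun O hO => ⟨fun l => hO _ (hy (y_mem hi l)), fun l => hO _ (hy (h2 l)),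
    fun l => hO _ (h4 h.gp.2 (y_mem_Sec l)), fun l => hO _ (h4 (y_mem_Sec l) h.gm.2),
    hO _ (h4 h.gp.2 h.gm.2)⟩⟩

theorem up_eq (k : Fin (D.S.N + 1)) : D.up k = D.t * ρ (α D.gp * β (D.S.y k))⁻¹ := by
  rw [map_inv₀, map_mul, ← h.κ, ← h.σ, up, div_eq_mul_inv]

theorem um_eq' (p : D.ι) (l : Fin (D.Ym.N + 1)) :
    D.um p l = D.t⁻¹ * ρ (α (D.a p.1 * D.Ym.y l / D.gm ^ 2) * β (D.S.y p.2)) := by
  rw [um_eq h.ne, map_mul, ← h.κ, ← h.σ, div_div_eq_mul_div, div_eq_inv_mul, mul_comm (D.μ _)]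

theorem cp_ne (k : Fin (D.S.N + 1)) : (α D.gp * β (D.S.y k))⁻¹ ≠ 0 :=
  inv_ne_zero (mul_ne_zero ((map_ne_zero α).2 h.gp.1) ((map_ne_zero β).2 (D.S.y_ne k)))

theorem c_ne (j : Fin (D.n + 1)) (l : Fin (D.Ym.N + 1)) : D.a j * D.Ym.y l / D.gm ^ 2 ≠ 0 :=
  div_ne_zero (mul_ne_zero (h.a j) (D.Ym.y_ne l)) (pow_ne_zero 2 h.gm.1)

theorem cm_ne (p : D.ι) (l : Fin (D.Ym.N + 1)) :
    α (D.a p.1 * D.Ym.y l / D.gm ^ 2) * β (D.S.y p.2) ≠ 0 :=
  mul_ne_zero ((map_ne_zero α).2 (h.c_ne p.1 l)) ((map_ne_zero β).2 (D.S.y_ne p.2))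

theorem rfp (k : Fin (D.S.N + 1)) : IsRF ρ (D.up k) := by
  rw [h.up_eq, mul_comm]
  exact h.rf.scale (h.cp_ne k)

theorem rfm (p : D.ι) (l : Fin (D.Ym.N + 1)) : IsRF ρ (D.um p l) := by
  rw [h.um_eq', mul_comm]
  exact h.rf.inv.scale (h.cm_ne p l)

theorem μ_div (k l : Fin (D.S.N + 1)) : D.μ l / D.μ k = ρ (β (D.S.y l / D.S.y k)) := by
  rw [← h.σ, map_div₀]

theorem um_mul (j : Fin (D.n + 1)) (l : Fin (D.Ym.N + 1)) (k k' : Fin (D.S.N + 1)) :
    D.um (j, k') l = D.um (j, k) l * ρ (β (D.S.y k' / D.S.y k)) := by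
  have e := μ_ne (D := D) k
  rw [← h.μ_div]
  simp only [um]
  field_simp

/-- recognition of the points of the trivial end -/
theorem plus {o : D.io .P} (h1 : ∀ o', D.y .P o' / D.y .P o ∈ N.O) {k : Fin (D.S.N + 1)}
    (h2 : D.up k ∈ N.O) (h3 : N.v (D.up k) = 0) :
    ∃ x : Pts D.Yp, ∀ f ∈ (lp x).O, D.κ f ∈ N.O := by
  rcases o with _ | ⟨l, k'⟩
  · obtain ⟨V, hV, hd⟩ := Cns.exists_val_dom N
    obtain ⟨l, hl⟩ := sec_val h.gp.2 D.κ (KV.of_le hV)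
    refine absurd h3 ((hd _ h2).1 ⟨(h.rfp k).t_ne, hV _ h2, ?_⟩)
    have e := κ_ne (D := D) (D.Yp.y_ne l)
    convert mul_mem hl (hV _ (h1 (some (l, k)))) using 1
    simp only [y, up, Option.elim, map_div₀, inv_div]
    field_simp
  · obtain ⟨x, -, hx⟩ := exists_pt (N := N) (i := l) D.κ fun l' => by
      have h4 := h1 (some (l', k'))
      simp only [y, Option.elim] at h4
      rwa [mul_div_mul_right _ _ (μ_ne k'), ← map_div₀] at h4
    exact ⟨x, hx⟩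

/-- recognition of the points of the concave end -/
theorem vert {q : D.ιU} (h1 : ∀ q', D.yU q' / D.yU q ∈ N.O)
    (h2 : ∀ k, D.yC (some (q, k)) / D.yC none ∈ N.O ∧
      N.v (D.yC (some (q, k)) / D.yC none) = 0) :
    ∃ x : Pts D.Ym, ∀ f ∈ (lp x).O, D.κ f ∈ N.O := by
  obtain ⟨j, ⟨j', k⟩ | l⟩ := q
  · obtain ⟨V, hV, hd⟩ := Cns.exists_val_dom N
    obtain ⟨l, hl⟩ := sec_val h.gm.2 D.κ (KV.of_le hV)
    refine absurd (h2 k).2 ((hd _ (h2 k).1).1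
      ⟨div_ne_zero (h.ne.yC _) (h.ne.yC _), hV _ (h2 k).1, ?_⟩)
    have e1 := κ_ne (D := D) (D.Ym.y_ne l)
    have e2 := κ_ne (D := D) (h.a j)
    have e3 := κ_ne (D := D) (h.a j')
    have e4 := μ_ne (D := D) k
    convert mul_mem (pow_mem hl 2) (mul_mem (hV _ (h1 (j, .inr l))) (hV _ (h1 (j', .inr l))))
      using 1
    simp only [yC, yU, Option.elim, Sum.elim_inl, Sum.elim_inr, map_div₀, inv_div]
    field_simp
  · obtain ⟨x, -, hx⟩ := exists_pt (N := N) (i := l) D.κ fun l' => by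
      have h4 := h1 (j, .inr l')
      rwa [yU_inr h.ne, mul_div_mul_left _ _ (h.a j)] at h4
    exact ⟨x, hx⟩

/-- the affine lines over the trivial end -/
theorem of_plus (z : Pts (Cns.prod D.Yp D.S h.pf)) {k : Fin (D.S.N + 1)}
    (hk : (Cns.snd _ _ h.pf).map z ∈ pat D.S k) (c : ℂ) :
    (∃ c', (lpR (h.rfp k) (lp z) c).Of (mch D.y c')) ∧
      ∀ l, D.μ l / D.μ k ∈ (lpR (h.rfp k) (lp z) c).O := by
  obtain ⟨h1, h2⟩ := mem_prod h.pf z
  obtain ⟨l, hl⟩ := exists_pat ((Cns.fst _ _ h.pf).map z)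
  obtain ⟨i, j, -, hb⟩ := h.exists_bas h.hp ((Cns.fst _ _ h.pf).map z)
  have h3 : ∀ f ∈ (lp ((Cns.fst _ _ h.pf).map z)).O, D.κ f ∈ (lpR (h.rfp k) (lp z) c).O :=
    fun f hf => h.κ f ▸ π_mem_lpR _ (h1 f hf)
  have h4 : ∀ l, D.μ l / D.μ k ∈ (lpR (h.rfp k) (lp z) c).O := fun l =>
    h.μ_div k l ▸ π_mem_lpR _ (h2 _ (y_mem hk l))
  have h5 := Cns.lpP_of' h.pf (lp_of hl) (lp_of hk)
  rw [← Cns.lp_prod] at h5
  refine ⟨⟨D.cp i (j, k) l, Cns.of_mono (lpR_of' _ h5 c) (Cns.ra_le (fun f hf => ?_) ?_)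
    (mch_cp (p := (j, k)) (hb _ h3) h.ne h4 (fun l' => h3 _ (y_mem hl l'))
      (h3 _ ((at_y hl).div_mem h.gp.2)) (Cns.τ_mem_lpR _))⟩, h4⟩
  · have h7 : R274.Prod4_134.pr α β (D.Yp.A l) (D.S.A k) ≤ (mch D.y (D.cp i (j, k) l)).comap ρ := by
      refine R274.Prod4_134.pr_le (fun a ha => ?_) fun a ha => ?_
      · refine Algebra.adjoin_le (S := ((mch D.y (D.cp i (j, k) l)).comap ρ).comap α) ?_ ha
        rintro _ ⟨l', rfl⟩
        have h6 := div_mem_mch (s := D.y) (D.cp i (j, k) l) .P (some (l', k))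
        simp only [y, cp, Option.elim] at h6
        rwa [mul_div_mul_right _ _ (μ_ne k), ← map_div₀, h.κ] at h6
      · refine Algebra.adjoin_le (S := ((mch D.y (D.cp i (j, k) l)).comap ρ).comap β) ?_ ha
        rintro _ ⟨l', rfl⟩
        have h6 := div_mem_mch (s := D.y) (D.cp i (j, k) l) .G (some l')
        simp only [y, cp, yG, Option.elim] at h6
        rwa [mul_div_mul_left _ _ (κ_ne h.gp.1), h.μ_div] at h6
    exact h7 hf
  · exact div_mem_mch (s := D.y) (D.cp i (j, k) l) .G none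

/-- the points of the contracted concave end -/
theorem exists_vx (c : Cone F' D.S) (x : Pts D.Ym) :
    ∃ (L : LP E) (j : Fin (D.n + 1)) (l : Fin (D.Ym.N + 1)), x ∈ pat D.Ym l ∧
      At (mxf ℂ D.a) x (D.a j) ∧ (Reg L ∧ ∃ c', L.Of (mch D.y c')) ∧
      L.Of (Algebra.adjoin ℂ ((fun f => ρ (α f)) '' (lp x).O ∪ Set.range fun k => D.um (j, k) l)) ∧
      ∀ k, L.v (D.um (j, k) l) = 0 := by
  obtain ⟨l, hl⟩ := exists_pat x
  obtain ⟨i, j, hj, hb⟩ := h.exists_bas h.hm x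
  obtain ⟨p, hp, hv⟩ := c.exists_vtx
  obtain ⟨φ, h1, h2, h3⟩ := c.exists_φ h.pf
    (h.rf.scale (inv_ne_zero ((map_ne_zero α).2 (h.c_ne j l))))
  have h4 : ∀ k, φ (c.π (D.S.y k) / c.τ) = D.um (j, k) l := fun k => by
    rw [map_div₀, h1, h2, um_eq h.ne, map_inv₀, ← h.κ, ← h.σ, ← div_eq_inv_mul]
  have h5 : ∀ k, c.π (D.S.y k) / c.τ ∈ (lp p).O := fun k => by
    have := y_mem hp (c.e (some k))
    rwa [c.y0, c.y1] at this
  have h6 : ∀ f ∈ (lp x).O, D.κ f ∈ (lpP h3 (lp x) (lp p)).O := fun f hf =>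
    h.κ f ▸ ((Cns.dom_lpP_left h3 _ _).le hf).2
  have h7 : ∀ k, D.um (j, k) l ∈ (lpP h3 (lp x) (lp p)).O := fun k =>
    h4 k ▸ ((Cns.dom_lpP_right h3 _ _).le (h5 k)).2
  have key : ∀ {A : Subalgebra ℂ K} {B : Subalgebra ℂ E}, (lp x).Of A → (∀ a ∈ A, ρ (α a) ∈ B) →
      (∀ k, D.um (j, k) l ∈ B) → B ≤ (lpP h3 (lp x) (lp p)).O → (lpP h3 (lp x) (lp p)).Of B := by
    intro A B hA e1 e2 e3
    refine Cns.of_mono (Cns.lpP_of' h3 hA (lp_of hp))
      (R274.Prod4_134.pr_le e1 fun a ha => ?_) e3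
    refine Algebra.adjoin_le (S := B.comap φ) ?_ ha
    rintro _ ⟨o, rfl⟩
    obtain ⟨_ | k, rfl⟩ := c.e.surjective o
    · beta_reduce
      rw [div_self (c.P.y_ne _)]
      exact one_mem _
    · beta_reduce
      rw [c.y0, c.y1]
      change φ _ ∈ B
      rw [h4]
      exact e2 k
  refine ⟨lpP h3 (lp x) (lp p), j, l, hl, hj, ⟨Cns.lp_mk h3 x p ▸ reg_lp _, D.cm i j l,
    key (lp_of hl) (fun a ha => ?_)
      (fun k => div_mem_mch (s := D.y) (D.cm i j l) .C (some ((j, .inr l), k)))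
      (mch_cm (hb _ h6) h.ne (fun l' => h6 _ (y_mem hl l'))
        (h6 _ ((at_y hl).div_mem h.gm.2)) h7)⟩,
    key (of_self _) (fun a ha => Algebra.subset_adjoin (Or.inl ⟨a, ha, rfl⟩))
      (fun k => Algebra.subset_adjoin (Or.inr ⟨k, rfl⟩)) (Algebra.adjoin_le ?_), fun k => ?_⟩
  · refine Algebra.adjoin_le (S := ((mch D.y (D.cm i j l)).comap ρ).comap α) ?_ ha
    rintro _ ⟨l', rfl⟩
    have h8 := div_mem_mch (s := D.y) (D.cm i j l) .U (j, .inr l')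
    simp only [y, Dat.cm] at h8
    rwa [yU_inr h.ne, mul_div_mul_left _ _ (h.a j), h.κ] at h8
  · rintro _ (⟨a, ha, rfl⟩ | ⟨k, rfl⟩)
    exacts [(h.κ a ▸ h6 a ha : ρ (α a) ∈ _), h7 k]
  · rw [← h4]
    exact ((Cns.dom_lpP_right h3 _ _).eq _ (h5 k)).trans (hv k)

/-- either `μ` is regular, or all coordinates of `C` but the first vanish -/
theorem dich {o : D.io .C} (h1 : ∀ o', D.yC o' / D.yC o ∈ N.O) :
    (∀ q k, D.yC (some (q, k)) / D.yC none ∈ N.O ∧ N.v (D.yC (some (q, k)) / D.yC none) = 0) ∨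
      ∃ q k, ∀ o', D.yC o' / D.yC (some (q, k)) ∈ N.O := by
  rcases o with _ | ⟨q, k⟩
  · by_cases h2 : ∀ q k, N.v (D.yC (some (q, k)) / D.yC none) = 0
    · exact Or.inl fun q k => ⟨h1 _, h2 q k⟩
    · push Not at h2
      obtain ⟨q, k, h2⟩ := h2
      refine Or.inr ⟨q, k, fun o' => ?_⟩
      have h3 := LP.div_mem (h1 o') h2
      rwa [div_div_div_cancel_right₀ (h.ne.yC none)] at h3
  · exact Or.inr ⟨q, k, h1⟩

theorem isFr (c : ∀ j, D.io j) : IsFr (mch D.y c) := by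
  refine frac_of_subfield fun T hT x => ?_
  have h0 : ∀ a : ℂ, algebraMap ℂ E a ∈ T := fun a => hT _ (algebraMap_mem _ a)
  have h1 : ∀ j o o', D.y j o / D.y j o' ∈ T := fun j o o' => by
    rw [← div_div_div_cancel_right₀ (h.ne.y j (c j))]
    exact div_mem (hT _ (div_mem_mch c j o)) (hT _ (div_mem_mch c j o'))
  have h2 : ∀ f, D.κ f ∈ T := mem_of_chart (P := D.Y) (i := 0) h0 fun l => by
    rw [map_div₀]
    exact h1 .A l 0
  have h3 : ∀ f, D.σ f ∈ T := mem_of_chart (P := D.S) (i := 0) h0 fun l => by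
    have h4 := h1 .G (some l) (some 0)
    simp only [y, yG, Option.elim] at h4
    rwa [mul_div_mul_left _ _ (κ_ne h.gp.1), ← map_div₀] at h4
  refine h.rf.mem_subfield T (Cns.pf_mem_subfield h.pf (T.comap (ρ : M →+* E))
    (fun a => ?_) fun a => ?_) ?_ x
  · exact (h.κ a ▸ h2 a : ρ (α a) ∈ T)
  · exact (h.σ a ▸ h3 a : ρ (β a) ∈ T)
  · have h4 := mul_mem (h1 .G none (some 0)) (mul_mem (h2 D.gp) (h3 (D.S.y 0)))
    simp only [y, yG, Option.elim] at h4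
    rwa [div_mul_cancel₀ _ (mul_ne_zero (κ_ne h.gp.1) (μ_ne 0))] at h4

end Ok

end Dat

end Crest.Agent.X262.Ms2
end
end

-- ▼ part X262/End79/Main
section

/-!
# Row 262, road B (helper79): the ends of a master space

* `p0 h` : the place `t ↦ 0`; `dom_p0`, `ker_p0` : the local rings `lpR u L 0`;
* `End X B` : all local rings `lpR (c z • t) (lp z) 0` are points of `B`;
* `End.i`, `i_map`, `isEmb`, `mem_range`, `isDv`, `isDv_sub`, `isDv_sec`, `map_i`, `rs`, `lpb`.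
-/

set_option autoImplicit false

noncomputable section

namespace Crest.Agent.X262.End79

open Crest.Agent.X277 Crest.Agent.X277.Lef Crest.Agent.X277.AN.G1 Crest.Agent.X277.Cns
  Crest.Agent.X277.BD Crest.Agent.X277.BD.Br
open Crest.Agent.X262.Coh Crest.Agent.X262.Gwb Crest.Agent.X262.Ms2

section Loc

variable {F E : Type} [Field F] [Algebra ℂ F] [Field E] [Algebra ℂ E] {ρ : F →ₐ[ℂ] E} {t u : E}
  (h : IsRF ρ t)

/-- the place `t ↦ 0` -/
def p0 : Plc E F := plcR h (Plc.ofHom (AlgHom.id ℂ F)) 0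

theorem p0_ρ (a : F) : ρ a ∈ (p0 h).O ∧ (p0 h).π (ρ a) = a :=
  plcR_π h 0 (p := Plc.ofHom (AlgHom.id ℂ F)) Algebra.mem_top

theorem p0_t : t ∈ (p0 h).O ∧ (p0 h).π t = 0 := plcR_τ h _ 0

theorem p0_mul_t {g : E} (hg : g ∈ (p0 h).O) : g * t ∈ (p0 h).O ∧ (p0 h).π (g * t) = 0 :=
  ⟨mul_mem hg (p0_t h).1, by rw [Plc.π_mul _ hg (p0_t h).1, (p0_t h).2, mul_zero]⟩

theorem p0_scale (c : F) : ρ c * t ∈ (p0 h).O ∧ (p0 h).π (ρ c * t) = 0 := p0_mul_t h (p0_ρ h c).1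

theorem p0_add (a : F) {g : E} (hg : g ∈ (p0 h).O) :
    ρ a + g * t ∈ (p0 h).O ∧ (p0 h).π (ρ a + g * t) = a :=
  ⟨add_mem (p0_ρ h a).1 (p0_mul_t h hg).1, by
    rw [Plc.π_add _ (p0_ρ h a).1 (p0_mul_t h hg).1, (p0_ρ h a).2, (p0_mul_t h hg).2, add_zero]⟩

variable {c : F} (hc : c ≠ 0) (L : LP F)

theorem dom_p0 : (lpR (h.scale hc) L 0).Dom (L.comap (p0 h)) := by
  refine lpR_dom _ ⟨fun a ha => ⟨Algebra.mem_top, (p0_ρ h a).1, ?_⟩, fun a _ => ?_⟩
    ⟨(p0_scale h c).1, by rw [(p0_scale h c).2]; exact zero_mem _⟩ ?_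
  · change (p0 h).π (ρ a) ∈ L.O
    rwa [(p0_ρ h a).2]
  · change L.v ((p0 h).π (ρ a)) = L.v a
    rw [(p0_ρ h a).2]
  · rw [LP.comap_v, (p0_scale h c).2, LP.v_zero]

theorem ra_split {A : Subalgebra ℂ F} {a : E} (ha : a ∈ ra ρ A u) :
    ∃ b ∈ A, ∃ g ∈ ra ρ A u, a = ρ b + g * u := by
  obtain ⟨p, rfl⟩ := ha
  refine ⟨p.coeff 0, (p.coeff 0).2, evA ρ A u p.divX, ⟨_, rfl⟩, ?_⟩
  conv_lhs => rw [← p.divX_mul_X_add]
  change evA ρ A u _ = _
  rw [map_add, map_mul, evA_X, evA_C, add_comm]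

theorem ker_p0 {f : E} (hf : f ∈ (lpR (h.scale hc) L 0).O) :
    (p0 h).π f = 0 ↔ f / (ρ c * t) ∈ (lpR (h.scale hc) L 0).O := by
  have h1 := dom_p0 h hc L
  have h2 := lpR_of (h.scale hc) (L := L) (c := 0)
  have h3 := (h.scale hc).t_ne
  constructor
  · intro h0
    obtain ⟨a, ha, b, hb, h4, h5⟩ := h2.loc f hf
    obtain ⟨a₀, -, g, hg, rfl⟩ := ra_split ha
    have h6 := Plc.π_mul _ (h1.le hf).1 (h1.le (h2.le hb)).1
    rw [h5, h0, zero_mul, ← mul_assoc,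
      (p0_add h a₀ (mul_mem (h1.le (h2.le hg)).1 (p0_ρ h c).1)).2] at h6
    rw [h6, map_zero, zero_add] at h5
    rw [show f / (ρ c * t) = g / b by
      rw [div_eq_div_iff h3 (LP.ne_zero_of_ne h4), h5]]
    exact LP.div_mem (h2.le hg) h4
  · intro h4
    rw [← div_mul_cancel₀ f h3, Plc.π_mul _ (h1.le h4).1 (p0_scale h c).1, (p0_scale h c).2,
      mul_zero]

end Loc

/-- an end: `X × {0}` lies in `B` -/
structure End (X B : SV) where
  /-- the functions on `X` -/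
  ρ : X.F →ₐ[ℂ] B.F
  /-- the parameter -/
  t : B.F
  rf : IsRF ρ t
  /-- the local scalars -/
  c : X.Pt → X.F
  c_ne : ∀ z, c z ≠ 0
  ex : ∀ z, ∃ w : B.Pt, lp w = lpR (rf.scale (c_ne z)) (lp z) 0

namespace End

variable {X B : SV} (D : End X B)

/-- the local equation of the end -/
abbrev u (z : X.Pt) : B.F := D.ρ (D.c z) * D.t

/-- the embedding -/
def i : Hom X B where
  p := p0 D.rf
  reg z := by
    obtain ⟨w, hw⟩ := D.ex z
    obtain ⟨k, hk⟩ := exists_pat w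
    exact ⟨k, fun j => (dom_p0 D.rf (D.c_ne z) (lp z)).le (hw ▸ y_mem hk j)⟩


theorem lp_i (z : X.Pt) : lp (D.i.map z) = lpR (D.rf.scale (D.c_ne z)) (lp z) 0 := by
  obtain ⟨w, hw⟩ := D.ex z
  rw [← hw, D.i.map_eq (y := w) (hw ▸ dom_p0 D.rf (D.c_ne z) (lp z))]

theorem π_ρ (a : X.F) : D.i.p.π (D.ρ a) = a := (p0_ρ D.rf a).2

theorem ρ_mem {z : X.Pt} {a : X.F} (ha : a ∈ (lp z).O) : D.ρ a ∈ (lp (D.i.map z)).O := by
  rw [lp_i]
  exact π_mem_lpR _ ha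





theorem ker (z : X.Pt) {f : B.F} (hf : f ∈ (lp (D.i.map z)).O) :
    D.i.p.π f = 0 ↔ f / D.u z ∈ (lp (D.i.map z)).O := by
  rw [lp_i] at hf ⊢
  exact ker_p0 D.rf (D.c_ne z) _ hf

theorem isEmb : IsEmb D.i :=
  ⟨fun z z' h => eq_of_le fun a ha => by
    have h1 := D.ρ_mem ha
    rw [h] at h1
    simpa only [π_ρ] using D.i.π_mem h1, fun _ g hg => ⟨_, D.ρ_mem hg, D.π_ρ g⟩⟩







/-- restriction of a tuple to the end -/
theorem rs {T : Tup B.F} {p : Tup X.F} (e : T.io ≃ p.io) (v : B.F)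
    (h : ∀ j, ∃ g ∈ D.i.p.O, T.y j / v = D.ρ (p.y (e j)) + g * D.t) : Rs D.i T p := by
  refine ⟨e, v, 1, fun j => ?_, fun j => ?_⟩ <;> obtain ⟨g, hg, h1⟩ := h j <;> rw [h1]
  · exact (p0_add D.rf _ hg).1
  · rw [one_mul]
    exact (p0_add D.rf _ hg).2.symm

/-- the line bundle of the restricted tuple -/
theorem lpb {T : Tup B.F} {p : Tup X.F} (h : Rs D.i T p) (h0 : ∃ j, p.y j ≠ 0) (hT : T.Reg B) :
    LPb D.i T.bd p.bd := by
  obtain ⟨e, u, c, hc, h1, h2, h3⟩ := End36.rs_key h h0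
  refine ⟨u / D.ρ c, fun x g hg => ?_⟩
  obtain ⟨j, hj⟩ := End36.exists_at hT (D.i.map x)
  have h5 := hg.ev_div_ne hj
  have h6 := LP.mem_of_ne h5
  have h7 := (h3 x j hj).2.1.mul_unit (f := D.i.p.π (g / T.y j))
    (by rw [← D.i.ev_map h6]; exact h5)
  rwa [h2, ← D.π_ρ c, ← D.i.p.π_mul (p0_ρ D.rf c).1 (h1 j),
    ← D.i.p.π_mul (D.i.mem_O h6) (mul_mem (p0_ρ D.rf c).1 (h1 j)),
    show g / T.y j * (D.ρ c * (T.y j / u)) = g / (u / D.ρ c) by
      rw [div_div_eq_mul_div, mul_left_comm, div_mul_div_cancel₀ hj.ne, mul_div_assoc',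
        mul_comm]] at h7

end End

end Crest.Agent.X262.End79
end
end

-- ▼ part X262/End79/Two
section

/-!
# Row 262, road B (helper79): ends with arbitrary local equations; birationality

* `mkEnd`, `exists_end` : the end from arbitrary witnesses; `End.Wit` and its calculus;
* `bim_of`, `iso_of`, `iso_of_of` : the map to a product.
-/

set_option autoImplicit false

noncomputable section

namespace Crest.Agent.X262.End79

open Crest.Agent.X277 Crest.Agent.X277.Lef Crest.Agent.X277.AN.G1 Crest.Agent.X277.Cns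
  Crest.Agent.X277.BD Crest.Agent.X277.BD.Br
open Crest.Agent.X262.Coh Crest.Agent.X262.Gwb Crest.Agent.X262.Ms2
open Crest.Agent.X262.Form88 (Iso)
open Crest.Agent.R274.Prod1_134 (IsPF isPF)

namespace End

variable {X B : SV} (D : End X B)

/-- `u` is a local equation of the end at `z`, and `w` is the point of the end -/
def Wit (z : X.Pt) (u : B.F) (w : B.Pt) : Prop :=
  ∃ (hu : IsRF D.ρ u) (c : X.F), c ≠ 0 ∧ u = D.t * D.ρ c ∧ lp w = lpR hu (lp z) 0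

theorem wit (z : X.Pt) : D.Wit z (D.u z) (D.i.map z) :=
  ⟨D.rf.scale (D.c_ne z), D.c z, D.c_ne z, mul_comm _ _, D.lp_i z⟩

variable {D} {z : X.Pt} {u : B.F} {w : B.Pt}

theorem Wit.lp' (h : D.Wit z u w) :
    ∃ (c : X.F) (hc : c ≠ 0), u = D.ρ c * D.t ∧ lp w = lpR (D.rf.scale hc) (lp z) 0 := by
  obtain ⟨hu, c, hc, h1, h2⟩ := h
  rw [mul_comm] at h1
  subst h1
  exact ⟨c, hc, rfl, h2⟩

theorem Wit.map (h : D.Wit z u w) : D.i.map z = w := by
  obtain ⟨c, hc, -, h2⟩ := h.lp'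
  exact D.i.map_eq (h2 ▸ dom_p0 D.rf hc (lp z))

theorem Wit.ne (h : D.Wit z u w) : u ≠ 0 := h.1.t_ne

theorem Wit.mem (h : D.Wit z u w) : u ∈ (lp w).O := by
  obtain ⟨hu, -, -, -, h2⟩ := h
  exact h2 ▸ τ_mem_lpR hu

theorem Wit.π (h : D.Wit z u w) : D.i.p.π u = 0 := by
  obtain ⟨c, hc, rfl, -⟩ := h.lp'
  exact (p0_scale D.rf c).2

theorem Wit.ev_eq (h : D.Wit z u w) : ev u w = 0 := by
  obtain ⟨hu, -, -, -, h2⟩ := h
  unfold ev
  exact h2 ▸ lpR_v_τ hu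

theorem Wit.ker (h : D.Wit z u w) {f : B.F} (hf : f ∈ (lp w).O) :
    D.i.p.π f = 0 ↔ f / u ∈ (lp w).O := by
  obtain ⟨c, hc, rfl, h2⟩ := h.lp'
  rw [h2] at hf ⊢
  exact ker_p0 D.rf hc _ hf

/-- a point over `z` at which a local equation vanishes is the point of the end -/
theorem Wit.eq (h : D.Wit z u w) {w' : B.Pt} (h1 : ∀ a ∈ (lp z).O, D.ρ a ∈ (lp w').O)
    (h2 : u ∈ (lp w').O) (h3 : ev u w' = 0) : w = w' := by
  obtain ⟨hu, -, -, -, h5⟩ := h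
  refine eq_of_le ?_
  have h4 := lpR_le hu h1 h2
  rw [show (lp w').v u = 0 from h3] at h4
  rwa [h5]

theorem isDv' {a : BD ℂ B.F} (h1 : ∀ z, ∃ u w, D.Wit z u w ∧ At a w u⁻¹)
    (h2 : ∀ w, w ∉ Set.range D.i.map → At a w 1) : IsDv D.i a :=
  ⟨D.isEmb, h2, fun z => by
    obtain ⟨u, w, h3, h4⟩ := h1 z
    obtain rfl := h3.map
    exact ⟨u, h3.mem, h4, fun _ hf => h3.ker hf⟩⟩

/-- the difference of two divisors, given by local generators -/
theorem isDv_sub' {a b : BD ℂ B.F}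
    (h1 : ∀ z, ∃ u w f, D.Wit z u w ∧ At a w f ∧ At b w (u * f))
    (h2 : ∀ w, w ∉ Set.range D.i.map → ∃ f, At a w f ∧ At b w f) : IsDv D.i (a - b) := by
  refine isDv' (fun z => ?_) fun w hw => ?_
  · obtain ⟨u, w, f, h3, h4, h5⟩ := h1 z
    refine ⟨u, w, h3, ?_⟩
    have h6 := h4.sub h5
    rwa [div_mul_cancel_right₀ h4.ne] at h6
  · obtain ⟨f, h3, h4⟩ := h2 w hw
    simpa only [div_self h3.ne] using h3.sub h4

/-- the zero divisor of a section `s` of `a` -/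
theorem isDv_sec' {a : BD ℂ B.F} {s : B.F} (hs : s ≠ 0)
    (h1 : ∀ z, ∃ u w, D.Wit z u w ∧ At a w (s / u))
    (h2 : ∀ w, ¬ At a w s → w ∈ Set.range D.i.map) : IsDv D.i (a - pr ℂ s) :=
  isDv_sub' (fun z => by
    obtain ⟨u, w, h3, h4⟩ := h1 z
    exact ⟨u, w, _, h3, h4, by rw [mul_div_cancel₀ _ h3.ne]; exact at_pr _ hs⟩)
    fun w hw => ⟨s, by_contra fun h => hw (h2 w h), at_pr _ hs⟩

end End

section Mk

variable {M E : Type} [Field M] [Algebra ℂ M] [Field E] [Algebra ℂ E] {X : PModel ℂ M}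
  {B : PModel ℂ E} {ρ : M →ₐ[ℂ] E} {t : E} (h : IsRF ρ t)
  (H : ∀ z : Pts X, ∃ (u : E) (hu : IsRF ρ u) (c : M), c ≠ 0 ∧ u = t * ρ c ∧
    ∃ w : Pts B, lp w = lpR hu (lp z) 0)

/-- the end given by arbitrary witnesses (`ρ`, `t` are the given ones by `rfl`) -/
def mkEnd : End (sv X) (sv B) where
  ρ := ρ
  t := t
  rf := h
  c z := (H z).choose_spec.choose_spec.choose
  c_ne z := (H z).choose_spec.choose_spec.choose_spec.1
  ex z := by
    obtain ⟨-, h1, w, h2⟩ := (H z).choose_spec.choose_spec.choose_spec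
    refine ⟨w, h2.trans ?_⟩
    congr 1
    exact h1.trans (mul_comm _ _)





end Mk

variable {B Y P : SV}

theorem plcP_ofHom {K F M E : Type} [Field K] [Algebra ℂ K] [Field F] [Algebra ℂ F] [Field M]
    [Algebra ℂ M] [Field E] [Algebra ℂ E] {α : K →ₐ[ℂ] M} {β : F →ₐ[ℂ] M} (pf : IsPF α β)
    {κ : K →ₐ[ℂ] E} {φ : F →ₐ[ℂ] E} (θ : M →ₐ[ℂ] E) (h1 : ∀ a, θ (α a) = κ a)
    (h2 : ∀ b, θ (β b) = φ b) : plcP pf (Plc.ofHom κ) (Plc.ofHom φ) = Plc.ofHom θ := by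
  generalize hq : plcP pf (Plc.ofHom κ) (Plc.ofHom φ) = q
  have h3 : ∀ z, Algebra.TensorProduct.productMap α β z ∈ q.O ∧
      q.π (Algebra.TensorProduct.productMap α β z) =
        θ (Algebra.TensorProduct.productMap α β z) := fun z => by
    induction z with
    | zero => simp
    | tmul a b =>
      have h4 := plcP_mul pf (p := Plc.ofHom κ) (q := Plc.ofHom φ) (a := a) Algebra.mem_top
        (b := b) Algebra.mem_top
      rw [hq] at h4
      rw [Algebra.TensorProduct.productMap_apply_tmul, map_mul, h1, h2]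
      exact h4
    | add x y hx hy =>
      rw [map_add, map_add]
      exact ⟨add_mem hx.1 hy.1, by rw [q.π_add hx.1 hy.1, hx.2, hy.2]⟩
  have h4 : ∀ x, x ∈ q.O ∧ q.π x = θ x := fun x => by
    obtain ⟨_, ⟨a, rfl⟩, _, ⟨b, rfl⟩, hb, rfl⟩ := pf.frac x
    have h5 : q.π (Algebra.TensorProduct.productMap α β b) ≠ 0 :=
      (h3 b).2 ▸ (map_ne_zero θ).2 hb
    exact ⟨Plc.div_mem (h3 a).1 h5, (Plc.π_div (h3 a).1 h5).trans (by
      rw [(h3 a).2, (h3 b).2, ← map_div₀]; rfl)⟩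
  obtain ⟨O, π, _, _, _, _, _⟩ := q
  obtain rfl : O = ⊤ := top_unique fun x _ => (h4 x).1
  obtain rfl : π = θ := funext fun x => (h4 x).2
  rfl

/-- the map to the product is birational -/
theorem bim_of (ζ : Hom B Y) (γ : Hom B P) {κ : Y.F →ₐ[ℂ] B.F} {φ : P.F →ₐ[ℂ] B.F}
    (hz : ζ.p = Plc.ofHom κ) (hg : γ.p = Plc.ofHom φ) (h : IsPF κ φ) : Bim (pair ζ γ) :=
  ⟨pfEquiv (isPF ℂ Y.F P.F) h, by
    rw [pair_p, hz, hg]
    exact plcP_ofHom _ _ (pfEquiv_left _ h) (pfEquiv_right _ h),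
    (pfEquiv (isPF ℂ Y.F P.F) h).surjective⟩

theorem iso_of_of (μ : Hom B Y) (w : B.Pt) {A : Set B.F}
    (hw : (lp w).Of (Algebra.adjoin ℂ A))
    (hA : ∀ g ∈ A, ∃ f ∈ (lp (μ.map w)).O, μ.p.π f = g) : Iso μ w := by
  have h2 : ∀ a ∈ Algebra.adjoin ℂ A, ∃ f ∈ (lp (μ.map w)).O, μ.p.π f = a := fun a ha => by
    refine Algebra.adjoin_induction (p := fun a _ => ∃ f ∈ (lp (μ.map w)).O, μ.p.π f = a)
      hA (fun c => ⟨_, algebraMap_mem _ c, μ.p.π_alg c⟩) ?_ ?_ ha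
    · rintro _ _ - - ⟨f, hf, rfl⟩ ⟨g, hg, rfl⟩
      exact ⟨_, add_mem hf hg, μ.p.π_add (μ.mem_O hf) (μ.mem_O hg)⟩
    · rintro _ _ - - ⟨f, hf, rfl⟩ ⟨g, hg, rfl⟩
      exact ⟨_, mul_mem hf hg, μ.p.π_mul (μ.mem_O hf) (μ.mem_O hg)⟩
  intro g hg
  obtain ⟨a, ha, c, hc, h0, h3⟩ := hw.loc g hg
  obtain ⟨a, ha', rfl⟩ := h2 a ha
  obtain ⟨c, hc', rfl⟩ := h2 c hc
  have h4 := LP.ne_zero_of_ne h0
  have h5 : ev c (μ.map w) ≠ 0 := (μ.ev_map hc').symm ▸ h0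
  exact ⟨a / c, LP.div_mem ha' h5, by
    rw [Plc.π_div (μ.mem_O ha') h4, ← h3, mul_div_cancel_right₀ _ h4]⟩

/-- the map to the product is an immersion at `w` -/
theorem iso_of (ζ : Hom B Y) (γ : Hom B P) (w : B.Pt) {A : Set B.F}
    (hw : (lp w).Of (Algebra.adjoin ℂ A))
    (hA : ∀ g ∈ A, (∃ f ∈ (lp (ζ.map w)).O, ζ.p.π f = g) ∨
      ∃ f ∈ (lp (γ.map w)).O, γ.p.π f = g) : Iso (pair ζ γ) w := by
  refine iso_of_of _ w hw fun g hg => ?_
  rw [pair_map]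
  rcases hA g hg with ⟨f, hf, rfl⟩ | ⟨f, hf, rfl⟩
  · exact ⟨_, by simpa using mem_mk (isPF ℂ Y.F P.F) hf (one_mem (lp (γ.map w)).O),
      (plcP_left _ γ.p (ζ.mem_O hf)).2⟩
  · exact ⟨_, by simpa using mem_mk (isPF ℂ Y.F P.F) (one_mem (lp (ζ.map w)).O) hf,
      (plcP_right _ ζ.p (γ.mem_O hf)).2⟩

end Crest.Agent.X262.End79
end
end

-- ▼ part X262/Ms2/Sp
section

/-!
# Row 262, road B (helper2), part 6: the space and its two ends

* `PureStmt` : the two-step model;  `Spc h` : the space;  `exists_spc`;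
* `Spc.ep`, `Spc.em` : the ends;  `dvp`, `dvm` : they are divisors;  `fib` : good fibres.
-/

set_option autoImplicit false

noncomputable section

namespace Crest.Agent.X262.Ms2

open Crest.Agent.X277 Crest.Agent.X277.Lef Crest.Agent.X277.AN.G1 Crest.Agent.X277.BD
  Crest.Agent.X277.BD.Br
open Crest.Agent.X277.Cns (IsRF lpR Gn ra)
open Crest.Agent.X277.Res.Out (IsFr)
open Crest.Agent.R274.Prod1_134 (IsPF)
open Crest.Agent.X262.Coh Crest.Agent.X262.End79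

/-- the two-step model -/
def PureStmt : Prop :=
  ∀ {K F M E : Type} [Field K] [Algebra ℂ K] [Field F] [Algebra ℂ F] [Field M] [Algebra ℂ M]
    [Field E] [Algebra ℂ E] {α : K →ₐ[ℂ] M} {β : F →ₐ[ℂ] M} (pf : IsPF α β) (ρ : M →ₐ[ℂ] E)
    (X : PModel ℂ K) (S : PModel ℂ F) {J : Type} [Fintype J] {io : J → Type} [∀ j, Finite (io j)]
    [∀ j, Nonempty (io j)] (s : ∀ j, io j → E), (∀ j i, s j i ≠ 0) → (∀ c, IsFr (mch s c)) →
    ∀ (vx : Pts X → LP E) (u : Pts X → Fin (S.N + 1) → E) (rf : ∀ x k, IsRF ρ (u x k)),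
    (∀ x k l, u x l = u x k * ρ (β (S.y l / S.y k))) →
    (∀ x, Reg (vx x) ∧ ∃ c, (vx x).Of (mch s c)) →
    (∀ x, (vx x).Of (Algebra.adjoin ℂ ((fun f => ρ (α f)) '' (lp x).O ∪ Set.range (u x)))) →
    (∀ x k, (vx x).v (u x k) = 0) →
    (∀ (N : LP E) c, mch s c ≤ N.O →
      (∃ x, (vx x).O ≤ N.O) ∨ ∃ k, ∀ l, ρ (β (S.y l / S.y k)) ∈ N.O) →
    ∃ (B : PModel ℂ E) (N : ℕ) (R : Fin (N + 1) → E), 0 < N ∧ (∀ i, R i ≠ 0) ∧
      (∀ j, Gn B (s j)) ∧
      (∀ w : Pts B, ∃ i k, (lp w).Of (Algebra.adjoin ℂ (Set.range (fun l => R l / R i) ∪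
        Set.range fun l => ρ (β (S.y l / S.y k))))) ∧
      (∀ (L : LP E) c k, L.Of (mch s c) → Reg L → (∀ l, ρ (β (S.y l / S.y k)) ∈ L.O) →
        ∃ w : Pts B, lp w = L) ∧
      (∀ (z : Pts (Cns.prod X S pf)) k, (Cns.snd X S pf).map z ∈ pat S k →
        ∃ w : Pts B, lp w = lpR (rf ((Cns.fst X S pf).map z) k) (lp z) 0) ∧
      ∃ x i, ∀ l, R l / R i ∈ (vx x).O

variable {K F M E F' : Type} [Field K] [Algebra ℂ K] [Field F] [Algebra ℂ F] [Field M]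
  [Algebra ℂ M] [Field E] [Algebra ℂ E] [Field F'] [Algebra ℂ F']
  {D : Dat K F E} {α : K →ₐ[ℂ] M} {β : F →ₐ[ℂ] M} {ρ : M →ₐ[ℂ] E}

/-- the space -/
structure Spc (h : D.Ok α β ρ) where
  /-- the model -/
  B : PModel ℂ E
  /-- the length of `R` -/
  N : ℕ
  /-- the coordinates of the contraction -/
  R : Fin (N + 1) → E
  N_pos : 0 < N
  R_ne : ∀ i, R i ≠ 0
  gn : ∀ j, Gn B (D.y j)
  emb : ∀ w : Pts B, ∃ i k, (lp w).Of (Algebra.adjoin ℂ (Set.range (fun l => R l / R i) ∪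
    Set.range fun l => ρ (β (D.S.y l / D.S.y k))))
  exp : ∀ (z : Pts (Cns.prod D.Yp D.S h.pf)) k, (Cns.snd _ _ h.pf).map z ∈ pat D.S k →
    ∀ c, ∃ w : Pts B, lp w = lpR (h.rfp k) (lp z) c
  /-- a chart of `a` -/
  jx : Pts D.Ym → Fin (D.n + 1)
  /-- a chart of `Ym` -/
  lx : Pts D.Ym → Fin (D.Ym.N + 1)
  hl : ∀ x, x ∈ pat D.Ym (lx x)
  hj : ∀ x, At (mxf ℂ D.a) x (D.a (jx x))
  exm : ∀ (z : Pts (Cns.prod D.Ym D.S h.pf)) k, (Cns.snd _ _ h.pf).map z ∈ pat D.S k →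
    ∃ w : Pts B, lp w = lpR (h.rfm (jx ((Cns.fst _ _ h.pf).map z), k)
      (lx ((Cns.fst _ _ h.pf).map z))) (lp z) 0
  pur : ∃ (x : Pts D.Ym) (i : Fin (N + 1)) (L : LP E), (∀ l, R l / R i ∈ L.O) ∧
    L.Of (Algebra.adjoin ℂ ((fun f => ρ (α f)) '' (lp x).O ∪
      Set.range fun k => D.um (jx x, k) (lx x))) ∧ ∀ k, L.v (D.um (jx x, k) (lx x)) = 0

theorem vx_le (h : D.Ok α β ρ) {x : Pts D.Ym} {L N : LP E} {u : Fin (D.S.N + 1) → E}
    (h1 : L.Of (Algebra.adjoin ℂ ((fun f => ρ (α f)) '' (lp x).O ∪ Set.range u)))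
    (h2 : ∀ k, L.v (u k) = 0) (h3 : ∀ f ∈ (lp x).O, D.κ f ∈ N.O)
    (h4 : ∀ k, u k ∈ N.O ∧ N.v (u k) = 0) : L.O ≤ N.O := by
  have h5 : ∀ f ∈ (lp x).O, D.κ f ∈ L.O := fun f hf =>
    h.κ f ▸ h1.le (Algebra.subset_adjoin (Or.inl ⟨f, hf, rfl⟩))
  refine le_of_gen h1 ?_ ?_ <;> rintro _ (⟨f, hf, rfl⟩ | ⟨k, rfl⟩)
  · exact (h.κ f ▸ h3 f hf : ρ (α f) ∈ _)
  · exact (h4 k).1
  · beta_reduce
    rw [← h.κ, v_hom h3 hf, v_hom h5 hf]
  · rw [(h4 k).2, h2]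

theorem exists_spc (hP : PureStmt) (h : D.Ok α β ρ) (c : Cone F' D.S) : Nonempty (Spc h) := by
  choose vx jx lx hl hj v1 v2 v3 using h.exists_vx c
  obtain ⟨B, N, R, h1, h2, h3, h4, h5, h6, x, i, h7⟩ := hP h.pf ρ D.Ym D.S D.y h.ne.y h.isFr vx
    (fun x k => D.um (jx x, k) (lx x)) (fun x k => h.rfm _ _) (fun x k l => h.um_mul _ _ k l)
    v1 v2 v3 fun N c' hc => by
      rcases h.dich (N := N) (o := c' .C) fun o => hc (div_mem_mch c' .C o) with h1 | ⟨q, k, h1⟩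
      · obtain ⟨x, hx⟩ := h.vert (N := N) (q := c' .U) (fun q => hc (div_mem_mch c' .U q)) (h1 _)
        exact Or.inl ⟨x, vx_le h (v2 x) (v3 x) hx fun k => h1 (jx x, .inr (lx x)) k⟩
      · refine Or.inr ⟨k, fun l => ?_⟩
        have h2 := h1 (some (q, l))
        simp only [Dat.yC, Option.elim] at h2
        rwa [mul_div_mul_left _ _ (h.ne.yU q), h.μ_div] at h2
  refine ⟨⟨B, N, R, h1, h2, h3, h4, fun z k hk c => ?_, jx, lx, hl, hj, h6, x, i, vx x, h7, v2 x,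
    v3 x⟩⟩
  obtain ⟨⟨c', h8⟩, h9⟩ := h.of_plus z hk c
  exact h5 _ c' k h8 ((reg_lp z).lpR _ c) fun l => h.μ_div k l ▸ h9 l

namespace Spc

variable {h : D.Ok α β ρ} (W : Spc h)

theorem gnS : Gn W.B D.μ := fun w => by
  obtain ⟨i, k, hw⟩ := W.emb w
  exact ⟨k, Dat.μ_ne k, fun l => h.μ_div k l ▸ hw.le (Algebra.subset_adjoin (Or.inr ⟨l, rfl⟩))⟩

theorem gnR : Gn W.B W.R := fun w => by
  obtain ⟨i, k, hw⟩ := W.emb w
  exact ⟨i, W.R_ne i, fun l => hw.le (Algebra.subset_adjoin (Or.inl ⟨l, rfl⟩))⟩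

/-- the trivial end -/
def ep : End (sv (Cns.prod D.Yp D.S h.pf)) (sv W.B) := mkEnd h.rf fun z => by
  obtain ⟨k, hk⟩ := exists_pat ((Cns.snd _ _ h.pf).map z)
  exact ⟨_, h.rfp k, _, h.cp_ne k, h.up_eq k, W.exp z k hk 0⟩

/-- the concave end -/
def em : End (sv (Cns.prod D.Ym D.S h.pf)) (sv W.B) := mkEnd h.rf.inv fun z => by
  obtain ⟨k, hk⟩ := exists_pat ((Cns.snd _ _ h.pf).map z)
  exact ⟨_, h.rfm _ _, _, h.cm_ne _ _, h.um_eq' _ _, W.exm z k hk⟩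

theorem witp (z : Pts (Cns.prod D.Yp D.S h.pf)) {k : Fin (D.S.N + 1)}
    (hk : (Cns.snd _ _ h.pf).map z ∈ pat D.S k) : W.ep.Wit z (D.up k) (W.ep.i.map z) := by
  obtain ⟨w, hw⟩ := W.exp z k hk 0
  have h1 : W.ep.Wit z (D.up k) w := ⟨h.rfp k, _, h.cp_ne k, h.up_eq k, hw⟩
  exact h1.map ▸ h1

theorem witm (z : Pts (Cns.prod D.Ym D.S h.pf)) {k : Fin (D.S.N + 1)}
    (hk : (Cns.snd _ _ h.pf).map z ∈ pat D.S k) :
    W.em.Wit z (D.um (W.jx ((Cns.fst _ _ h.pf).map z), k) (W.lx ((Cns.fst _ _ h.pf).map z)))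
      (W.em.i.map z) := by
  obtain ⟨w, hw⟩ := W.exm z k hk
  have h1 : W.em.Wit z _ w := ⟨h.rfm _ _, _, h.cm_ne _ _, h.um_eq' _ _, hw⟩
  exact h1.map ▸ h1

variable {W} {w : Pts W.B}

/-- the point of a product under a point of the space -/
theorem exists_z {Q : PModel ℂ K} (x : Pts Q) (hx : ∀ f ∈ (lp x).O, D.κ f ∈ (lp w).O)
    {k : Fin (D.S.N + 1)} (hk : ∀ l, D.μ l / D.μ k ∈ (lp w).O) :
    ∃ z : Pts (Cns.prod Q D.S h.pf), (Cns.fst _ _ h.pf).map z = x ∧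
      (Cns.snd _ _ h.pf).map z ∈ pat D.S k ∧ ∀ f ∈ (lp z).O, ρ f ∈ (lp w).O := by
  obtain ⟨s, hs, h1⟩ := exists_pt (N := lp w) (i := k) D.σ fun l => by
    rw [map_div₀]
    exact hk l
  exact ⟨Cns.mk h.pf x s, Cns.fst_mk _ _ _, by rwa [Cns.snd_mk],
    mk_le h.pf ρ (fun f hf => h.κ f ▸ hx f hf) fun f hf => h.σ f ▸ h1 f hf⟩

theorem mem_ep {k : Fin (D.S.N + 1)} (hk : ∀ l, D.μ l / D.μ k ∈ (lp w).O)
    (h1 : D.up k ∈ (lp w).O) (h2 : ev (D.up k) w = 0) : w ∈ Set.range W.ep.i.map := by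
  obtain ⟨o, -, ho⟩ := W.gn .P w
  obtain ⟨x, hx⟩ := h.plus ho h1 h2
  obtain ⟨z, -, h3, h4⟩ := exists_z x hx hk
  exact ⟨z, (W.witp z h3).eq h4 h1 h2⟩

theorem mem_em (h1 : ∀ q k, D.yC (some (q, k)) / D.yC none ∈ (lp w).O ∧
    (lp w).v (D.yC (some (q, k)) / D.yC none) = 0) : w ∈ Set.range W.em.i.map := by
  obtain ⟨q, -, hq⟩ := W.gn .U w
  obtain ⟨x, hx⟩ := h.vert hq (h1 q)
  obtain ⟨k, -, hk⟩ := W.gnS w
  obtain ⟨z, -, h3, h4⟩ := exists_z x hx hk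
  exact ⟨z, (W.witm z h3).eq h4 (h1 _ _).1 (h1 _ _).2⟩

theorem yG_div (k l : Fin (D.S.N + 1)) (h : D.Ok α β ρ) :
    D.yG (some l) / D.yG (some k) = D.μ l / D.μ k := mul_div_mul_left _ _ (Dat.κ_ne h.gp.1)

theorem at_G {k : Fin (D.S.N + 1)} (hk : ∀ l, D.μ l / D.μ k ∈ (lp w).O)
    (h1 : D.up k ∈ (lp w).O) : At (mxf ℂ D.yG) w (D.yG (some k)) := by
  refine at_mxf (h.ne.yG _) ?_
  rintro (_ | l)
  · exact h1
  · exact yG_div k l h ▸ hk l

theorem μ_mem {Q : PModel ℂ K} (e : End (sv (Cns.prod Q D.S h.pf)) (sv W.B)) (he : e.ρ = ρ)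
    {z : Pts (Cns.prod Q D.S h.pf)} {k : Fin (D.S.N + 1)}
    (hk : (Cns.snd _ _ h.pf).map z ∈ pat D.S k) (l : Fin (D.S.N + 1)) :
    D.μ l / D.μ k ∈ (lp (e.i.map z)).O := by
  rw [h.μ_div, ← DFunLike.congr_fun he]
  exact e.ρ_mem ((mem_prod h.pf z).2 _ (y_mem hk l))

theorem κ_mem {Q : PModel ℂ K} (e : End (sv (Cns.prod Q D.S h.pf)) (sv W.B)) (he : e.ρ = ρ)
    (z : Pts (Cns.prod Q D.S h.pf)) :
    ∀ f ∈ (lp ((Cns.fst _ _ h.pf).map z)).O, D.κ f ∈ (lp (e.i.map z)).O := fun f hf => by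
  rw [h.κ, ← DFunLike.congr_fun he]
  exact e.ρ_mem ((mem_prod h.pf z).1 _ hf)

variable (W) in
/-- the trivial end is the divisor of `t` -/
theorem dvp : IsDv W.ep.i (mxf ℂ D.yG - pr ℂ D.t) := by
  refine End.isDv_sec' h.ne.t (fun z => ?_) fun w hw => ?_
  · obtain ⟨k, hk⟩ := exists_pat ((Cns.snd _ _ h.pf).map z)
    refine ⟨_, _, W.witp z hk, ?_⟩
    rw [Dat.up, div_div_cancel₀ h.ne.t]
    exact at_G (μ_mem W.ep rfl hk) (W.witp z hk).mem
  · obtain ⟨_ | k, h1, h2⟩ := W.gn .G w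
    · exact absurd (at_mxf h1 h2) hw
    · refine mem_ep (k := k) (fun l => yG_div k l h ▸ h2 (some l)) (h2 none) ?_
      by_contra h3
      exact hw ((at_mxf h1 h2).of_ev' h3)

theorem _root_.Crest.Agent.X262.Ms2.Dat.Ok.bas (h : D.Ok α β ρ) {Q : PModel ℂ K}
    (hQ : oP D.Y ∈ On Q) (x : Pts Q) {j : Fin (D.n + 1)} (hj : At (mxf ℂ D.a) x (D.a j))
    {O : Subalgebra ℂ E} (hO : ∀ f ∈ (lp x).O, D.κ f ∈ O) : ∃ i, D.Bas O i j := by
  obtain ⟨y, hy⟩ := exists_under hQ x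
  obtain ⟨i, hi⟩ := exists_pat y
  have h4 : ∀ {f g : K}, f ∈ (oP D.Yp).Sec → g ∈ (oP D.Ym).Sec → f * g / D.a j ∈ (lp x).O :=
    fun hf hg => hj.div_mem (Sec_mono h.le (mul_mem_Sec hf hg))
  exact ⟨i, fun l => hO _ (hy (y_mem hi l)), fun l => hO _ (hj.div_mem (mem_Sec_mxf _ l)),
    fun l => hO _ (h4 h.gp.2 (y_mem_Sec l)), fun l => hO _ (h4 (y_mem_Sec l) h.gm.2),
    hO _ (h4 h.gp.2 h.gm.2)⟩

variable (W) in
theorem mch_em (z : Pts (Cns.prod D.Ym D.S h.pf)) : ∃ i, mch D.y (D.cm i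
    (W.jx ((Cns.fst _ _ h.pf).map z)) (W.lx ((Cns.fst _ _ h.pf).map z))) ≤
      (lp (W.em.i.map z)).O := by
  obtain ⟨k, hk⟩ := exists_pat ((Cns.snd _ _ h.pf).map z)
  have h1 := κ_mem W.em rfl z
  obtain ⟨i, hi⟩ := h.bas h.hm _ (W.hj _) h1
  refine ⟨i, Dat.mch_cm hi h.ne (fun l => h1 _ (y_mem (W.hl _) l))
    (h1 _ ((at_y (W.hl _)).div_mem h.gm.2)) fun k' => ?_⟩
  rw [h.um_mul _ _ k, ← h.μ_div]
  exact mul_mem (W.witm z hk).mem (μ_mem W.em rfl hk k')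

variable (W) in
/-- the concave end is the fibre of `C` over the coordinate point -/
theorem dvm : IsDv W.em.i (mxf ℂ D.yC - (mxf ℂ D.yU + mxf ℂ D.μ)) := by
  refine End.isDv_sub' (fun z => ?_) fun w hw => ?_
  · obtain ⟨k, hk⟩ := exists_pat ((Cns.snd _ _ h.pf).map z)
    obtain ⟨i, hi⟩ := W.mch_em z
    refine ⟨_, _, D.yC none, W.witm z hk,
      at_mxf (h.ne.yC _) fun o => hi (div_mem_mch (s := D.y) _ .C o), ?_⟩
    rw [Dat.um, show D.yC none = (D.t * D.κ D.gm) ^ 2 from rfl,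
      div_mul_cancel₀ _ (pow_ne_zero 2 h.ne.tg)]
    exact (at_mxf (h.ne.yU _) fun q => hi (div_mem_mch (s := D.y) _ .U q)).add
      (at_mxf (Dat.μ_ne k) (μ_mem W.em rfl hk))
  · obtain ⟨o, -, ho⟩ := W.gn .C w
    obtain h1 | ⟨q, k, h1⟩ := h.dich ho
    · exact absurd (mem_em h1) hw
    · refine ⟨_, at_mxf (h.ne.yC _) h1, (at_mxf (h.ne.yU q) fun q' => ?_).add
        (at_mxf (Dat.μ_ne k) fun l => ?_)⟩
      · exact mul_div_mul_right (D.yU q') (D.yU q) (Dat.μ_ne k) ▸ h1 (some (q', k))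
      · exact mul_div_mul_left (D.μ l) (D.μ k) (h.ne.yU q) ▸ h1 (some (q, l))

/-- the points over a good point -/
theorem fib {y : Pts D.Y} (hy : ∀ f ∈ (lp y).O, D.κ f ∈ (lp w).O)
    (h1 : At (mxf ℂ D.a) y (D.gp * D.gm)) {xp : Pts D.Yp} (h2 : (lp xp).O = (lp y).O)
    {xm : Pts D.Ym} (h3 : (lp xm).O = (lp y).O) (h4 : At (oP D.Ym) xm D.gm)
    (hw : w ∉ Set.range W.em.i.map) : ∃ k, (∀ o, D.yG o / D.yG (some k) ∈ (lp w).O) ∧
      (lp w).Of (Algebra.adjoin ℂ (D.κ '' (lp y).O ∪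
        Set.range fun o => D.yG o / D.yG (some k))) := by
  obtain ⟨k, -, hk⟩ := W.gnS w
  have hu : D.up k ∈ (lp w).O := by
    by_contra hu
    obtain ⟨_ | k', -, h5⟩ := W.gn .G w
    · have h6 : (D.up k)⁻¹ ∈ (lp w).O := by
        rw [Dat.up, inv_div]
        exact h5 (some k)
      have h7 : (lp w).v (D.up k)⁻¹ = 0 := by
        by_contra h7
        exact hu (inv_inv (D.up k) ▸ (lp w).inv_mem h7)
      obtain ⟨z, rfl, h8, h9⟩ := exists_z xm (fun f hf => hy f (h3 ▸ hf)) hk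
      have e : ∀ j l, D.um (j, k) l =
          (D.up k)⁻¹ * D.κ (D.a j / (D.gp * D.gm) * (D.Ym.y l / D.gm)) := fun j l => by
        have e1 := h.ne.t
        have e2 := Dat.κ_ne (D := D) h.gm.1
        have e3 := Dat.κ_ne (D := D) h.gp.1
        simp only [Dat.um, Dat.up, Dat.yU, Sum.elim_inr, map_div₀, map_mul, inv_div]
        field_simp
      have e' : ∀ j l, D.κ (D.a j / (D.gp * D.gm) * (D.Ym.y l / D.gm)) ∈ (lp w).O := fun j l =>
        hy _ (mul_mem (h1.div_mem (mem_Sec_mxf _ j)) (h3 ▸ h4.div_mem (y_mem_Sec l)))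
      refine hw ⟨z, (W.witm z h8).eq h9 (e _ _ ▸ mul_mem h6 (e' _ _)) ?_⟩
      unfold ev
      rw [e, LP.v_mul _ h6 (e' _ _), h7, zero_mul]
    · refine hu ?_
      have h6 : D.yG none / D.yG (some k') * _ ∈ _ := mul_mem (h5 none) (hk k')
      rwa [← yG_div k k' h, div_mul_div_cancel₀ (h.ne.yG _)] at h6
  have h5 : ∀ o, D.yG o / D.yG (some k) ∈ (lp w).O := fun o =>
    (at_G hk hu).div_mem (mem_Sec_mxf _ o)
  refine ⟨k, h5, ?_⟩
  obtain ⟨z, rfl, h8, h9⟩ := exists_z xp (fun f hf => hy f (h2 ▸ hf)) hk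
  obtain ⟨w', hw'⟩ := W.exp z k h8 ((lp w).v (D.up k))
  obtain rfl : w' = w := eq_of_le (hw' ▸ lpR_le _ h9 hu)
  have h6 := Cns.lpP_of' h.pf (of_self (lp ((Cns.fst _ _ h.pf).map z))) (lp_of h8)
  rw [← Cns.lp_prod] at h6
  have h7 := lpR_of' (h.rfp k) h6 ((lp w').v (D.up k))
  rw [← hw'] at h7
  refine Cns.of_mono h7 (Cns.ra_le (fun f hf => ?_)
    (Algebra.subset_adjoin (Or.inr ⟨none, rfl⟩))) (Algebra.adjoin_le ?_)
  · have h10 : R274.Prod4_134.pr α β (lp ((Cns.fst _ _ h.pf).map z)).O (D.S.A k) ≤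
        (Algebra.adjoin ℂ (D.κ '' (lp y).O ∪
          Set.range fun o => D.yG o / D.yG (some k))).comap ρ := by
      refine R274.Prod4_134.pr_le (fun a ha => Algebra.subset_adjoin
        (Or.inl ⟨a, h2 ▸ ha, h.κ a⟩)) fun a ha => ?_
      refine Algebra.adjoin_le (S := ((Algebra.adjoin ℂ (D.κ '' (lp y).O ∪
          Set.range fun o => D.yG o / D.yG (some k))).comap ρ).comap β) ?_ ha
      rintro _ ⟨l, rfl⟩
      exact Algebra.subset_adjoin (Or.inr ⟨some l, (yG_div k l h).trans (h.μ_div k l)⟩)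
    exact h10 hf
  · rintro _ (⟨f, hf, rfl⟩ | ⟨o, rfl⟩)
    exacts [hy f hf, h5 o]

end Spc

end Crest.Agent.X262.Ms2
end
end

-- ▼ part X262/Ms2/Rec
section

/-!
# Row 262, road B (helper2), part 7: records

* `isE_of`, `cod_of_eq`, `cod_of_zero`, `bd_eq` : the fields of `Emb`;  `m1` : the embedding of
  the concave end;
* `pure_of`, `mem_range_of_gen` : tuples whose restriction comes from the first factor.
-/

set_option autoImplicit false

noncomputable section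

namespace Crest.Agent.X262.Ms2

open Crest.Agent.X277 Crest.Agent.X277.Lef Crest.Agent.X277.AN.G1 Crest.Agent.X277.BD
  Crest.Agent.X277.BD.Br
open Crest.Agent.X277.Cns (Gn)
open Crest.Agent.R274.Prod1_134 (isPF pα pβ)
open Crest.Agent.X262.Coh Crest.Agent.X262.Gwb Crest.Agent.X262.End36

theorem isE_of {Y : SV} {J : Type} (T : J → Tup Y.F)
    (h : ∀ x : Y.Pt, ∃ A : Set Y.F, (lp x).Of (Algebra.adjoin ℂ A) ∧ ∀ g ∈ A, ∃ j i i',
      (T j).y i' ≠ 0 ∧ (∀ l, (T j).y l / (T j).y i' ∈ (lp x).O) ∧ g = (T j).y i / (T j).y i') :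
    IsE T := by
  intro x f hf
  obtain ⟨A, h1, h2⟩ := h x
  have h3 : Algebra.adjoin ℂ A ≤ Algebra.adjoin ℂ (crdAt T x) := Algebra.adjoin_mono fun g hg => by
    obtain ⟨j, i, i', h4, h5, h6⟩ := h2 g hg
    exact ⟨j, i, i', at_mxf h4 h5, h6⟩
  obtain ⟨a, ha, c, hc, h4⟩ := h1.loc f hf
  exact ⟨a, h3 ha, c, h3 hc, h4⟩

section Cod

variable {F J : Type} [Field F] [Algebra ℂ F] [DecidableEq J] (T : J → Tup F) (j : J)

theorem cod_of_zero (i : (T j).io) (h : (T j).y i = 0) :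
    ∃ (q : MvPolynomial (Σ j, (T j).io) ℂ) (κ : J → ℕ), q ≠ 0 ∧
      q.IsWeightedHomogeneous (fun v => (Pi.single v.1 1 : J → ℕ)) κ ∧
      MvPolynomial.aeval (fun v : Σ j, (T j).io => (T v.1).y v.2) q = 0 :=
  ⟨MvPolynomial.X ⟨j, i⟩, Pi.single j 1, MvPolynomial.X_ne_zero _,
    MvPolynomial.isWeightedHomogeneous_X _ _ _, (MvPolynomial.aeval_X _ _).trans h⟩

theorem cod_of_eq (i i' : (T j).io) (hi : i ≠ i') (h : (T j).y i = (T j).y i') :
    ∃ (q : MvPolynomial (Σ j, (T j).io) ℂ) (κ : J → ℕ), q ≠ 0 ∧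
      q.IsWeightedHomogeneous (fun v => (Pi.single v.1 1 : J → ℕ)) κ ∧
      MvPolynomial.aeval (fun v : Σ j, (T j).io => (T v.1).y v.2) q = 0 := by
  refine ⟨MvPolynomial.X ⟨j, i⟩ - MvPolynomial.X ⟨j, i'⟩, Pi.single j 1,
    sub_ne_zero.2 fun h0 => hi ?_, ?_, ?_⟩
  · exact sigma_mk_injective (β := fun j => (T j).io) (MvPolynomial.X_injective h0)
  · exact (MvPolynomial.weightedHomogeneousSubmodule ℂ _ _).sub_mem
      (MvPolynomial.isWeightedHomogeneous_X ℂ _ (⟨j, i⟩ : Σ j, (T j).io))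
      (MvPolynomial.isWeightedHomogeneous_X ℂ _ (⟨j, i'⟩ : Σ j, (T j).io))
  · rw [map_sub, MvPolynomial.aeval_X, MvPolynomial.aeval_X]
    exact sub_eq_zero.2 h

end Cod

/-- padding with zeros does not change the divisor -/
theorem bd_eq {F ι κ : Type} [Field F] [Algebra ℂ F] [Fintype ι] [Fintype κ] {s : ι → F}
    {s' : κ → F} (h0 : ∃ i, s i ≠ 0) (h1 : ∀ i, ∃ k, s' k = s i)
    (h2 : ∀ k, s' k = 0 ∨ ∃ i, s' k = s i) : mxf ℂ s = mxf ℂ s' := by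
  refine eq_mxf (fun k => ?_) fun V => ?_
  · obtain h | ⟨i, h⟩ := h2 k <;> rw [h]
    exacts [zero_mem _, mem_Sec_mxf s i]
  · obtain ⟨i, hi⟩ := exists_val_mxf (k := ℂ) h0 V
    obtain ⟨k, hk⟩ := h1 i
    exact ⟨k, hk ▸ hi⟩

section M1

variable {K : Type} [Field K] [Algebra ℂ K] {P : PModel ℂ K} {n : ℕ} {a : Fin (n + 1) → K}

/-- a family with a tuple `(0, …, 0, a · y)` is an embedding -/
theorem isE_pad (hg : Gn P a) {J : Type} (T : J → Tup K) (j : J)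
    (e : Fin (n + 1) → Fin (P.N + 1) → (T j).io) (h1 : ∀ i l, (T j).y (e i l) = a i * P.y l)
    (h2 : ∀ o, (T j).y o = 0 ∨ ∃ i l, (T j).y o = a i * P.y l) : IsE (Y := sv P) T := by
  refine isE_of (Y := sv P) T fun x => ?_
  obtain ⟨l, hl⟩ := exists_pat x
  obtain ⟨i, h3, h4⟩ := hg x
  refine ⟨_, lp_of hl, ?_⟩
  rintro _ ⟨l', rfl⟩
  refine ⟨j, e i l', e i l, by rw [h1]; exact mul_ne_zero h3 (P.y_ne l), fun o => ?_, ?_⟩
  · obtain h | ⟨i', l'', h⟩ := h2 o <;> rw [h]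
    · rw [zero_div]
      exact zero_mem _
    · rw [h1, mul_div_mul_comm]
      exact mul_mem (h4 i') (y_mem hl l'')
  · rw [h1, h1, mul_div_mul_left _ _ h3]

theorem bd_tm1 (ha : ∀ j, a j ≠ 0) :
    mxf ℂ (fun p : Fin (n + 1) × Fin (P.N + 1) => a p.1 * P.y p.2) = (tm1 a P).bd :=
  bd_eq ⟨(0, 0), mul_ne_zero (ha 0) (P.y_ne 0)⟩ (fun p => ⟨some p, rfl⟩)
    fun o => o.casesOn (Or.inl rfl) fun p => Or.inr ⟨p, rfl⟩

/-- the embedding by the single tuple `(0, a · y)` -/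
def m1 (ha : ∀ j, a j ≠ 0) (hg : Gn P a) : Gwb.Emb (sv P) where
  J := Unit
  T _ := tm1 a P
  reg _ := ⟨⟨some (0, 0), mul_ne_zero (ha 0) (P.y_ne 0)⟩,
    bd_tm1 ha ▸ mxf_mem (hg.mul Cns.gn_y)⟩
  emb := isE_pad hg (fun _ : Unit => tm1 a P) () (fun i l => some (i, l)) (fun _ _ => rfl)
    fun o => o.casesOn (Or.inl rfl) fun p => Or.inr ⟨p.1, p.2, rfl⟩
  nt _ := ⟨⟨none, some (0, 0), (Option.some_ne_none _).symm⟩⟩
  cod := cod_of_zero (fun _ : Unit => tm1 a P) () none rfl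

end M1

theorem pure_of {Y S B : SV} (i : Hom (Y.prod S) B) {ι : Type} [Fintype ι] [DecidableEq ι]
    {y : ι → B.F} (hT : (Tup.mk ι y).Reg B) (u : B.F) {r : ι → Y.F} (h0 : ∃ l, r l ≠ 0)
    (h : ∀ l, y l / u ∈ i.p.O ∧ i.p.π (y l / u) = pα ℂ Y.F S.F (r l)) :
    (Tup.mk ι r).Reg Y ∧ ∃ p : Tup (Y.prod S).F, p.Reg _ ∧ Rs i (Tup.mk ι y) p ∧
      Rs (fst Y S) (Tup.mk ι r) p := by
  have h1 : Rs i (Tup.mk ι y) (Tup.mk ι fun l => pα ℂ Y.F S.F (r l)) :=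
    ⟨Equiv.refl _, u, 1, fun l => (h l).1, fun l => by rw [one_mul]; exact (h l).2.symm⟩
  have h2 := rs_reg h1 (h0.imp fun l hl => (map_ne_zero _).2 hl) hT
  obtain ⟨s⟩ : Nonempty S.Pt := inferInstance
  have h3 : Rs (pair (idH Y) (Cns.cst Y.P s)) (Tup.mk ι fun l => pα ℂ Y.F S.F (r l))
      (Tup.mk ι r) := by
    have h4 := fun l => Cns.plcP_left (isPF ℂ Y.F S.F) (p := (idH Y).p) (Cns.cst Y.P s).p
      (a := r l) Algebra.mem_top
    refine ⟨Equiv.refl _, 1, 1, fun l => ?_, fun l => ?_⟩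
    · rw [div_one]
      exact (h4 l).1
    · rw [div_one, one_mul]
      exact (h4 l).2.symm
  exact ⟨rs_reg h3 h0 h2, _, h2, h1, Equiv.refl _, 1, 1, fun _ => Algebra.mem_top,
    fun l => by rw [div_one, one_mul]; rfl⟩

theorem mem_range_of_gen {K M E : Type} [Field K] [Algebra ℂ K] [Field M] [Algebra ℂ M] [Field E]
    [Algebra ℂ E] (α : K →ₐ[ℂ] M) (p : Plc E M) {L : LP E} {A : Set E}
    (h1 : L.Of (Algebra.adjoin ℂ A)) (h2 : L.O ≤ p.O) (h3 : ∀ f ∈ L.O, L.v f ≠ 0 → p.π f ≠ 0)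
    (h4 : ∀ g ∈ A, ∃ a, α a = p.π g) : ∀ f ∈ L.O, ∃ a, α a = p.π f := by
  have h5 : ∀ g ∈ Algebra.adjoin ℂ A, ∃ a, α a = p.π g := fun g hg => by
    refine Algebra.adjoin_induction (p := fun g _ => ∃ a, α a = p.π g) h4
      (fun c => ⟨algebraMap ℂ K c, by rw [p.π_alg, AlgHom.commutes]⟩) ?_ ?_ hg
    · rintro f g hf hg ⟨a, ha⟩ ⟨b, hb⟩
      exact ⟨a + b, by rw [map_add, ha, hb, p.π_add (h2 (h1.le hf)) (h2 (h1.le hg))]⟩
    · rintro f g hf hg ⟨a, ha⟩ ⟨b, hb⟩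
      exact ⟨a * b, by rw [map_mul, ha, hb, p.π_mul (h2 (h1.le hf)) (h2 (h1.le hg))]⟩
  intro f hf
  obtain ⟨a, ha, c, hc, h6, rfl⟩ := h1.loc f hf
  obtain ⟨a', ha'⟩ := h5 _ ha
  obtain ⟨c', hc'⟩ := h5 _ hc
  refine ⟨a' / c', ?_⟩
  rw [map_div₀, ha', hc', p.π_mul (h2 hf) (h2 (h1.le hc)),
    mul_div_cancel_right₀ _ (h3 c (h1.le hc) h6)]

end Crest.Agent.X262.Ms2
end
end

-- ▼ part X262/Pt39/Inp
section

/-!
# Row 262, road B (helper39): the input tuple of the master space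

* `exists_iso` : a point over which a modification is an isomorphism;
* `exists_a`   : a tuple which is regular on `Y` and dominates `O(1) ⊗ O(1)` of the two ends.
-/

set_option autoImplicit false

noncomputable section

namespace Crest.Agent.X262.Pt39

open Crest.Agent.X277 Crest.Agent.X277.Lef Crest.Agent.X277.AN.G1 Crest.Agent.X277.BD
open Crest.Agent.X277.BD.Br
open Crest.Agent.X262.Coh Crest.Agent.X262.Gwb
open Crest.Agent.X262.Chn (Ge mor)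
open Crest.Agent.X262.Form88 (Iso)

variable {K : Type} [Field K] [Algebra ℂ K] {U Y : PModel ℂ K}

theorem dom_mor (h : Ge U Y) (x : Pts U) : (lp ((mor h).map x : Pts Y)).Dom (lp x) :=
  Form88.bir_dom (W := U) (Y := Y) (μ := mor h) rfl x

theorem mor_surj (h : Ge U Y) (y : Pts Y) : ∃ x : Pts U, (mor h).map x = y :=
  Cns.hom_surjective (Q := U) (P := Y) (μ := mor h) rfl y

/-- the local ring of a point over which `U → Y` is an isomorphism -/
theorem le_of_iso {h : Ge U Y} {x : Pts U} (hx : Iso (mor h) x) :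
    (lp x).O ≤ (lp ((mor h).map x : Pts Y)).O := fun g hg => by
  obtain ⟨f, hf, rfl⟩ := hx g hg
  exact hf

theorem at_of_iso {h : Ge U Y} {x : Pts U} (hx : Iso (mor h) x) {a : BD ℂ K} {g : K}
    (hg : At a x g) : At a ((mor h).map x : Pts Y) g := fun V hV =>
  hg V fun f hf => hV f (le_of_iso hx hf)

theorem at_tr {a : BD ℂ K} {y : Pts Y} {g : K} (hg : At a y g) : At (Geo.tr Y a) y g :=
  Geo.at_of_od (Geo.tr_mem a) hg.ne fun V hV hx => by
    rw [Geo.od_tr hV]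
    exact Geo.nv_of_at hg hV.dvs hx

variable {s : Sit K} {y : Pts s.Y}

theorem good_g (h : ¬ s.Bad y) : At (oP s.Y) y s.g := by_contra fun h1 => h (Or.inl h1)

theorem good_p (h : ¬ s.Bad y) {x : Pts s.Yp} (hx : (mor s.hp).map x = y) :
    Iso (mor s.hp) x ∧ At (oP s.Yp) x s.gp := by_contra fun h1 =>
  h (Or.inr (Or.inl ⟨x, hx, not_and_or.1 h1⟩))

theorem good_m (h : ¬ s.Bad y) {x : Pts s.Ym} (hx : (mor s.hm).map x = y) :
    Iso (mor s.hm) x ∧ At (oP s.Ym) x s.gm := by_contra fun h1 =>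
  h (Or.inr (Or.inr ⟨x, hx, not_and_or.1 h1⟩))

theorem at_gp (h : ¬ s.Bad y) : At (oP s.Yp) y s.gp := by
  obtain ⟨x, rfl⟩ := mor_surj s.hp y
  exact at_of_iso (good_p h rfl).1 (good_p h rfl).2

theorem at_gm (h : ¬ s.Bad y) : At (oP s.Ym) y s.gm := by
  obtain ⟨x, rfl⟩ := mor_surj s.hm y
  exact at_of_iso (good_m h rfl).1 (good_m h rfl).2

/-- **the input tuple** -/
theorem exists_a' (s : Sit K) : ∃ (n : ℕ) (a : Fin (n + 1) → K), (∀ j, a j ≠ 0) ∧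
    ∀ y : Pts s.Y, ∃ j, (∀ l, a l / a j ∈ (lp y).O) ∧
      (∀ f ∈ (oP s.Yp).Sec, ∀ f' ∈ (oP s.Ym).Sec, f * f' / a j ∈ (lp y).O) ∧
      (¬ s.Bad y → ev (s.gp * s.gm / a j) y ≠ 0) := by
  have h1 := add_mem (Geo.tr_mem (P := s.Y) (oP s.Yp)) (Geo.tr_mem (P := s.Y) (oP s.Ym))
  obtain ⟨N, hN⟩ := serre h1
  obtain ⟨n, a, h2, h3, h4⟩ := exists_gn (add_mem h1 (nsmul_mem oP_mem N)) (hN N le_rfl)
  have h5 := pow_ne_zero N s.g_mem.1
  refine ⟨n, fun j => a j / s.g ^ N, fun j => div_ne_zero (h2 j) h5, fun y => ?_⟩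
  obtain ⟨j, -, hj⟩ := h3 y
  have h6 := at_mxf (h2 j) hj
  rw [← h4] at h6
  refine ⟨j, fun l => ?_, fun f hf f' hf' => ?_, fun h => ?_⟩
  · rw [div_div_div_cancel_right₀ h5]
    exact hj l
  · rw [div_div_eq_mul_div]
    exact h6.div_mem (mul_mem_Sec (mul_mem_Sec (Geo.Sec_le_tr _ hf) (Geo.Sec_le_tr _ hf'))
      (pow_mem_Sec s.g_mem.2 N))
  · rw [div_div_eq_mul_div]
    exact (((at_tr (at_gp h)).add (at_tr (at_gm h))).add ((good_g h).nsmul N)).ev_div_ne h6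


theorem exists_iso {h : Ge U Y} {y : Pts Y} {g : K}
    (h1 : ∀ x : Pts U, (mor h).map x = y → Iso (mor h) x ∧ At (oP U) x g) :
    ∃ x : Pts U, (lp x).O = (lp y).O ∧ At (oP U) x g := by
  obtain ⟨x, rfl⟩ := mor_surj h y
  exact ⟨x, le_antisymm (le_of_iso (h1 x rfl).1) (dom_mor h x).le, (h1 x rfl).2⟩

/-- **the input tuple**, in the form of helper2 -/
theorem exists_inp (s : Sit K) : ∃ (n : ℕ) (a : Fin (n + 1) → K), (∀ j, a j ≠ 0) ∧
    Cns.Gn s.Y a ∧ oP s.Yp + oP s.Ym ≤ mxf ℂ a ∧ ∀ y : Pts s.Y, ¬ s.Bad y →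
      At (mxf ℂ a) y (s.gp * s.gm) ∧
      (∃ x : Pts s.Yp, (lp x).O = (lp y).O ∧ At (oP s.Yp) x s.gp) ∧
      ∃ x : Pts s.Ym, (lp x).O = (lp y).O ∧ At (oP s.Ym) x s.gm := by
  obtain ⟨n, a, h1, h2⟩ := exists_a' s
  refine ⟨n, a, h1, fun y => (h2 y).imp fun j hj => ⟨h1 j, hj.1⟩, fun V => ?_, fun y hy =>
    ⟨?_, exists_iso fun _ => good_p hy, exists_iso fun _ => good_m hy⟩⟩
  · obtain ⟨y, hy⟩ := exists_ov' s.Y V
    obtain ⟨j, h3, h4, -⟩ := h2 y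
    obtain ⟨i, hi, -⟩ := exists_chart (P := s.Yp) V
    obtain ⟨l, hl, -⟩ := exists_chart (P := s.Ym) V
    rw [val_add, ← hi, ← hl, ← map_mul]
    exact (at_mxf (h1 j) h3).div_mem_iff.1 (h4 _ (y_mem_Sec i) _ (y_mem_Sec l)) V hy
  · obtain ⟨j, h3, -, h4⟩ := h2 y
    exact (at_mxf (h1 j) h3).of_ev' (h4 hy)

theorem N_pos (P : PModel ℂ K) (h : BD.dim ℂ K ≠ 0) : 0 < P.N := by
  refine Nat.pos_of_ne_zero fun h0 => h ?_
  have h1 : P.A 0 ≤ ⊥ := by
    refine Algebra.adjoin_le ?_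
    rintro _ ⟨j, rfl⟩
    have h2 : j = 0 := Fin.ext (by have := j.2; simp; omega)
    change P.y j / P.y 0 ∈ (⊥ : Subalgebra ℂ K)
    rw [h2, div_self (P.y_ne 0)]
    exact one_mem _
  have h2 : Function.Surjective (algebraMap ℂ K) := fun f => by
    obtain ⟨a, ha, c, hc, -, rfl⟩ := P.frac f
    obtain ⟨a, rfl⟩ := Algebra.mem_bot.1 (h1 ha)
    obtain ⟨c, rfl⟩ := Algebra.mem_bot.1 (h1 hc)
    exact ⟨a / c, map_div₀ _ _ _⟩
  have := KaehlerDifferential.subsingleton_of_surjective ℂ K h2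
  exact Module.finrank_zero_of_subsingleton

end Crest.Agent.X262.Pt39
end
end

-- ▼ part X262/Pur32/Main
section

/-!
# Row 262, road B (helper32), part 2: the blow-up of the vertex locus

`exists_pure` : resolve the family `s` (without the tuple of the base), then blow up the locus of
the vertex rings `vx x`.
-/

set_option autoImplicit false
set_option linter.style.haveILetI false

noncomputable section

namespace Crest.Agent.X262.Pur32

open Crest.Agent.X277 Crest.Agent.X277.Lef Crest.Agent.X277.AN.G1 Crest.Agent.X277.Cns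
open Crest.Agent.X277.Res.Out (IsFr)
open Crest.Agent.R274.Prod1_134 Crest.Agent.R274.Prod4_134
open Crest.Agent.X262.Ms2

variable {K F M E : Type} [Field K] [Algebra ℂ K] [Field F] [Algebra ℂ F] [Field M] [Algebra ℂ M]
  [Field E] [Algebra ℂ E]

theorem of_self (L : LP E) : L.Of L.O :=
  ⟨le_rfl, fun f hf => ⟨f, hf, 1, one_mem _, by simp, mul_one f⟩⟩

theorem mem_of_of {L N : LP E} {A : Subalgebra ℂ E} (h : L.Of A) (hA : A ≤ N.O)
    (hv : ∀ a ∈ A, L.v a ≠ 0 → N.v a ≠ 0) : L.O ≤ N.O := fun f hf => by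
  obtain ⟨a, ha, c, hc, h0, h1⟩ := h.loc f hf
  rw [show f = a / c by rw [← h1, mul_div_cancel_right₀ _ (LP.ne_zero_of_ne h0)]]
  exact LP.div_mem (hA ha) (hv c hc h0)

section Two

variable {ι κ : Type} (R : ι → E) (μ : κ → E)

/-- the chart ring of two tuples -/
def ch2 (i : ι) (k : κ) : Subalgebra ℂ E :=
  Algebra.adjoin ℂ (Set.range (fun l => R l / R i) ∪ Set.range fun l => μ l / μ k)

variable {R μ} {i : ι} {k : κ}

theorem left_mem (l : ι) : R l / R i ∈ ch2 R μ i k := Algebra.subset_adjoin (Or.inl ⟨l, rfl⟩)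

theorem right_mem (l : κ) : μ l / μ k ∈ ch2 R μ i k := Algebra.subset_adjoin (Or.inr ⟨l, rfl⟩)

theorem ch2_le {B : Subalgebra ℂ E} (h1 : ∀ l, R l / R i ∈ B) (h2 : ∀ l, μ l / μ k ∈ B) :
    ch2 R μ i k ≤ B := Algebra.adjoin_le (by
  rintro _ (⟨l, rfl⟩ | ⟨l, rfl⟩)
  exacts [h1 l, h2 l])

theorem chI_two (hR : ∀ i, R i ≠ 0) (hμ : ∀ k, μ k ≠ 0) (p : ι × κ) :
    chI ℂ (fun p : ι × κ => R p.1 * μ p.2) p = ch2 R μ p.1 p.2 := by
  refine le_antisymm (chI_le fun q => ?_) (ch2_le (fun l => ?_) fun l => ?_)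
  · rw [← div_mul_div_comm]
    exact mul_mem (left_mem _) (right_mem _)
  · have h := div_mem_chI ℂ (fun p : ι × κ => R p.1 * μ p.2) p (l, p.2)
    rwa [mul_div_mul_right _ _ (hμ _)] at h
  · have h := div_mem_chI ℂ (fun p : ι × κ => R p.1 * μ p.2) p (p.1, l)
    rwa [mul_div_mul_left _ _ (hR _)] at h

/-- the model of two tuples, if all its points are smooth -/
theorem exists_two [Finite κ] [Nonempty κ] (B' : PModel ℂ E) (hμ : ∀ k, μ k ≠ 0)
    (h : ∀ (N : LP E) i k, N.Of (ch2 B'.y μ i k) → Algebra.FormallySmooth ℂ N.O) :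
    ∃ B : PModel ℂ E, (∀ w : Pts B, ∃ i k, (lp w).Of (ch2 B'.y μ i k)) ∧
      ∀ (N : LP E) i k, N.Of (ch2 B'.y μ i k) → ∃ w : Pts B, lp w = N := by
  let t : Fin (B'.N + 1) × κ → E := fun p => B'.y p.1 * μ p.2
  have h1 : ∀ p, chI ℂ t p = ch2 B'.y μ p.1 p.2 := chI_two B'.y_ne hμ
  let B : PModel ℂ E := ofFam t (fun p => mul_ne_zero (B'.y_ne _) (hμ _))
    (fun p f => by
      obtain ⟨a, ha, c, hc, h0, h2⟩ := B'.frac' p.1 f
      have h3 : B'.A p.1 ≤ chI ℂ t p := h1 p ▸ Algebra.adjoin_mono Set.subset_union_left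
      exact ⟨a, h3 ha, c, h3 hc, h0, h2⟩)
    fun p => smooth_of_lp _ fun N hN => h N p.1 p.2 (h1 p ▸ hN)
  have h2 : ∀ i, B.A i = ch2 B'.y μ (eI _ i).1 (eI _ i).2 := fun i =>
    (ofFam_A _ _ _ _ i).trans (h1 _)
  refine ⟨B, fun w => ?_, fun N i k hN => ?_⟩
  · obtain ⟨i, hi⟩ := exists_pat w
    exact ⟨_, _, h2 i ▸ lp_of hi⟩
  · obtain ⟨w, -, hw⟩ := exists_lp_eq (P := B) (i := (eI _).symm (i, k)) (L := N)
      (by rw [h2, Equiv.apply_symm_apply]; exact hN)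
    exact ⟨w, hw⟩

end Two

theorem pos_of_ne (P : PModel ℂ E) {f : E} (h : ∀ c : ℂ, f ≠ algebraMap ℂ E c) : 0 < P.N := by
  by_contra h0
  have h1 : P.A 0 ≤ ⊥ := Algebra.adjoin_le (by
    rintro _ ⟨j, rfl⟩
    have h2 : j = 0 := Fin.ext (by have := j.2; simp only [Fin.val_zero]; omega)
    change P.y j / P.y 0 ∈ (⊥ : Subalgebra ℂ E)
    rw [h2, div_self (P.y_ne 0)]
    exact one_mem _)
  obtain ⟨a, ha, c, hc, -, rfl⟩ := P.frac f
  obtain ⟨a', rfl⟩ := Algebra.mem_bot.1 (h1 ha)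
  obtain ⟨c', rfl⟩ := Algebra.mem_bot.1 (h1 hc)
  exact h (a' / c') (map_div₀ _ _ _).symm

theorem rf_ne {ρ : M →ₐ[ℂ] E} {u : E} (h : IsRF ρ u) (a : M) : u ≠ ρ a := fun h0 =>
  Polynomial.X_sub_C_ne_zero a (h.eq_zero (by rw [map_sub, evp_X, evp_C, h0, sub_self]))

/-- **the pure model** -/
theorem exists_pure (hP : Res.PlusStmt ℂ) {al : K →ₐ[ℂ] M} {be : F →ₐ[ℂ] M} (pf : IsPF al be)
    (rho : M →ₐ[ℂ] E) (X : PModel ℂ K) (S : PModel ℂ F) {J : Type} [Fintype J] {io : J → Type}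
    [∀ j, Finite (io j)] [∀ j, Nonempty (io j)] (s : ∀ j, io j → E) (hs : ∀ j i, s j i ≠ 0)
    (hfr : ∀ c, IsFr (mch s c)) (vx : Pts X → LP E) (u : Pts X → Fin (S.N + 1) → E)
    (rf : ∀ x k, IsRF rho (u x k)) (hu : ∀ x k l, u x l = u x k * rho (be (S.y l / S.y k)))
    (v1 : ∀ x, Reg (vx x) ∧ ∃ c, (vx x).Of (mch s c))
    (v2 : ∀ x, (vx x).Of
      (Algebra.adjoin ℂ ((fun f => rho (al f)) '' (lp x).O ∪ Set.range (u x))))
    (v3 : ∀ x k, (vx x).v (u x k) = 0)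
    (H2 : ∀ (N : LP E) c, mch s c ≤ N.O → (∃ x, (vx x).O ≤ N.O) ∨
      ∃ k, ∀ l, rho (be (S.y l / S.y k)) ∈ N.O) :
    ∃ (B : PModel ℂ E) (N : ℕ) (R : Fin (N + 1) → E), 0 < N ∧ (∀ i, R i ≠ 0) ∧
      (∀ j, Gn B (s j)) ∧
      (∀ w : Pts B, ∃ i k, (lp w).Of (Algebra.adjoin ℂ (Set.range (fun l => R l / R i) ∪
        Set.range fun l => rho (be (S.y l / S.y k))))) ∧
      (∀ (L : LP E) c k, L.Of (mch s c) → Reg L → (∀ l, rho (be (S.y l / S.y k)) ∈ L.O) →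
        ∃ w : Pts B, lp w = L) ∧
      (∀ (z : Pts (Cns.prod X S pf)) k, (Cns.snd X S pf).map z ∈ pat S k →
        ∃ w : Pts B, lp w = lpR (rf ((Cns.fst X S pf).map z) k) (lp z) 0) ∧
      ∀ x, ∃ i, ∀ l, R l / R i ∈ (vx x).O := by
  obtain ⟨B', hg, hk⟩ := exists_res hP hs hfr
  choose b hb using fun x => (v1 x).2.elim fun c hc => hk _ c hc (v1 x).1
  let μ : Fin (S.N + 1) → E := fun k => rho (be (S.y k))
  have hμ : ∀ k, μ k ≠ 0 := fun k => (map_ne_zero rho).2 ((map_ne_zero be).2 (S.y_ne k))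
  have hd : ∀ l k, μ l / μ k = rho (be (S.y l / S.y k)) := fun l k => by
    rw [map_div₀, map_div₀]
  have hal : ∀ x, ∀ f ∈ (lp x).O, rho (al f) ∈ (vx x).O := fun x f hf =>
    (v2 x).le (Algebra.subset_adjoin (Or.inl ⟨f, hf, rfl⟩))
  have hum : ∀ x k, u x k ∈ (vx x).O := fun x k =>
    (v2 x).le (Algebra.subset_adjoin (Or.inr ⟨k, rfl⟩))
  -- the vertex ring lies in the rings of the exceptional divisor
  have A1 : ∀ (z : Pts (Cns.prod X S pf)) k, (Cns.snd X S pf).map z ∈ pat S k →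
      (vx ((Cns.fst X S pf).map z)).O ≤ (lpR (rf ((Cns.fst X S pf).map z) k) (lp z) 0).O := by
    intro z k hz
    set x := (Cns.fst X S pf).map z
    have h1 : ∀ f ∈ (lp x).O, rho (al f) ∈ (lpR (rf x k) (lp z) 0).O := fun f hf =>
      π_mem_lpR _ ((Cns.fst X S pf).π_mem hf)
    have h2 : ∀ l, rho (be (S.y l / S.y k)) ∈ (lpR (rf x k) (lp z) 0).O := fun l =>
      π_mem_lpR _ ((Cns.snd X S pf).π_mem (y_mem hz l))
    have h3 : ∀ l, u x l ∈ (lpR (rf x k) (lp z) 0).O := fun l =>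
      hu x k l ▸ mul_mem (τ_mem_lpR _) (h2 l)
    refine (of_dom (v2 x) (Algebra.adjoin_le ?_) (v_eq_of_adjoin
      (fun a ha => (v2 x).le (Algebra.subset_adjoin ha)) ?_ ?_)).le
    · rintro _ (⟨f, hf, rfl⟩ | ⟨l, rfl⟩)
      exacts [h1 f hf, h3 l]
    · rintro _ (⟨f, hf, rfl⟩ | ⟨l, rfl⟩)
      exacts [h1 f hf, h3 l]
    · rintro _ (⟨f, hf, rfl⟩ | ⟨l, rfl⟩)
      · exact ((dom_le (L := lp x) (L' := (lpR (rf x k) (lp z) 0).comap (.ofHom (rho.comp al)))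
          fun f hf => ⟨Algebra.mem_top, h1 f hf⟩).eq f hf).trans
          ((dom_le (L := lp x) (L' := (vx x).comap (.ofHom (rho.comp al)))
            fun f hf => ⟨Algebra.mem_top, hal x f hf⟩).eq f hf).symm
      · rw [v3, hu x k l, LP.v_mul _ (τ_mem_lpR _) (h2 l), lpR_v_τ, zero_mul]
  -- the rings of the exceptional divisor are localisations of the charts
  have A2 : ∀ (z : Pts (Cns.prod X S pf)) k i, (Cns.snd X S pf).map z ∈ pat S k →
      b ((Cns.fst X S pf).map z) ∈ pat B' i →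
      (lpR (rf ((Cns.fst X S pf).map z) k) (lp z) 0).Of (ch2 B'.y μ i k) := by
    intro z k i hz hi
    set x := (Cns.fst X S pf).map z
    have h1 := A1 z k hz
    have h2 : ch2 B'.y μ i k ≤ (lpR (rf x k) (lp z) 0).O := ch2_le
      (fun l => h1 (hb x ▸ y_mem hi l))
      fun l => hd l k ▸ π_mem_lpR _ ((Cns.snd X S pf).π_mem (y_mem hz l))
    have h3 : (vx x).O ≤ (fr h2).O := mem_of_of (hb x ▸ lp_of hi)
      (fun a ha => mem_fr h2 (Algebra.adjoin_mono Set.subset_union_left ha)) fun a ha h0 => by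
        rwa [← (fr_dom h2).eq a (mem_fr h2 (Algebra.adjoin_mono Set.subset_union_left ha)),
          (dom_le h1).eq a (hb x ▸ A_le hi ha)]
    have h4 : (lp z).Of (pr al be (lp x).O (S.A k)) := by
      rw [lp_prod pf z]
      exact lpP_of' pf (of_self _) (lp_of hz)
    refine of_fr (lpR_of' (rf x k) h4 0) h2 (ra_le (fun a ha => ?_) (h3 (hum x k)))
    refine pr_le (C := (fr h2).O.comap rho) (fun f hf => h3 (hal x f hf)) (fun f hf => ?_) ha
    refine Algebra.adjoin_le (S := ((fr h2).O.comap rho).comap be) ?_ hf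
    rintro _ ⟨l, rfl⟩
    change rho (be (S.y l / S.y k)) ∈ (fr h2).O
    exact hd l k ▸ mem_fr h2 (right_mem l)
  -- all points of the product model are smooth
  have A3 : ∀ (N : LP E) i k, N.Of (ch2 B'.y μ i k) → Algebra.FormallySmooth ℂ N.O := by
    intro N i k hN
    obtain ⟨p, hp, h1⟩ := exists_dom (P := B') (i := i) N fun l => hN.le (left_mem l)
    choose c _ hc using fun j => hg j p
    rcases H2 (lp p) c (mch_le hc) with ⟨x, hx⟩ | ⟨k', hk'⟩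
    · obtain rfl : b x = p := eq_of_le (hb x ▸ hx)
      have h2 : (vx x).O ≤ N.O := hb x ▸ h1.le
      obtain ⟨ξ, hξ, h3⟩ := exists_dom (P := S) (i := k) (N.comap (.ofHom (rho.comp be)))
        fun l => ⟨Algebra.mem_top, (hd l k ▸ hN.le (right_mem l) :
          rho (be (S.y l / S.y k)) ∈ N.O)⟩
      have h4 : (lp (mk pf x ξ)).O ≤ (N.comap (.ofHom rho)).O := by
        rw [lp_mk]
        exact (lpP_dom pf (M := N.comap (.ofHom rho))
          (dom_le fun f hf => ⟨Algebra.mem_top, Algebra.mem_top, h2 (hal x f hf)⟩)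
          (dom_le fun f hf => ⟨Algebra.mem_top, Algebra.mem_top, (h3.le hf).2⟩)).le
      have h5 := lpR_le (rf x k) (fun f hf => (h4 hf).2) (h2 (hum x k))
      rw [(dom_le h2).eq _ (hum x k), v3] at h5
      have h6 := A2 (mk pf x ξ) k i (by rwa [snd_mk]) (by rwa [fst_mk])
      rw [fst_mk] at h6
      rw [← eq_of_dom_of (dom_le h5) hN h6.le]
      haveI := lp_fs (mk pf x ξ)
      exact fs_lpR _
    · have h2 : ∀ l, μ l / μ k' ∈ (lp p).O := fun l => hd l k' ▸ hk' l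
      have h3 : (lp p).v (μ k / μ k') ≠ 0 := by
        rw [← h1.eq _ (h2 k)]
        refine LP.ne_of_inv_mem (h1.le (h2 k)) (div_ne_zero (hμ _) (hμ _)) ?_
        rw [inv_div]
        exact hN.le (right_mem _)
      rw [← eq_of_dom_of h1 hN (ch2_le (y_mem hp) fun l => by
        rw [← div_div_div_cancel_right₀ (hμ k')]
        exact LP.div_mem (h2 l) h3)]
      exact lp_fs p
  obtain ⟨B, g1, g2⟩ := exists_two B' hμ A3
  obtain ⟨x₀, -⟩ := exists_ov X (V := ⊤) fun _ => ValuationSubring.mem_top _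
  refine ⟨B, B'.N, B'.y, pos_of_ne B' (f := u x₀ 0) fun c h0 => rf_ne (rf x₀ 0) (algebraMap ℂ M c)
    (h0.trans (rho.commutes c).symm), B'.y_ne, fun j w => ?_, fun w => ?_,
    fun L c k h1 h2 h3 => ?_, fun z k hz => ?_, fun x => ?_⟩
  · obtain ⟨i, k, h1⟩ := g1 w
    obtain ⟨p, -, h2⟩ := exists_dom (P := B') (i := i) (lp w) fun l => h1.le (left_mem l)
    obtain ⟨c, h3, h4⟩ := hg j p
    exact ⟨c, h3, fun l => h2.le (h4 l)⟩
  · obtain ⟨i, k, h1⟩ := g1 w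
    refine ⟨i, k, ?_⟩
    simpa only [ch2, hd] using h1
  · obtain ⟨p, rfl⟩ := hk L c h1 h2
    obtain ⟨i, hi⟩ := exists_pat p
    exact g2 _ i k (of_mono (lp_of hi) (Algebra.adjoin_mono Set.subset_union_left)
      (ch2_le (y_mem hi) fun l => hd l k ▸ h3 l))
  · obtain ⟨i, hi⟩ := exists_pat (b ((Cns.fst X S pf).map z))
    exact g2 _ i k (A2 z k i hz hi)
  · obtain ⟨i, hi⟩ := exists_pat (b x)
    exact ⟨i, fun l => hb x ▸ y_mem hi l⟩

end Crest.Agent.X262.Pur32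
end
end

-- ▼ part X262/Ms2/Main
section

/-!
# Row 262, road B (helper2), part 8: master spaces exist

* `Spc.m` : the embedding of the space;  `Spc.res` : the restriction to the concave end;
* `mstStmt : MstStmt Full`.
-/

set_option autoImplicit false

noncomputable section

namespace Crest.Agent.X262.Ms2

open Crest.Agent.X277 Crest.Agent.X277.Lef Crest.Agent.X277.AN.G1 Crest.Agent.X277.BD
  Crest.Agent.X277.BD.Br
open Crest.Agent.X277.Cns (IsRF lpR Gn)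
open Crest.Agent.R274.Prod1_134 (IsPF isPF pα pβ PF)
open Crest.Agent.X262.Coh Crest.Agent.X262.End79
open Crest.Agent.X262.Gwb (Tup Rs ownT IsProj Sit Mst Pur MstStmt)
open Crest.Agent.X262.Chn (mor)

theorem pureStmt : PureStmt := by
  intro K F M E _ _ _ _ _ _ _ _ α β pf ρ X S J _ io _ _ s hs hfr vx u rf hu v1 v2 v3 H2
  obtain ⟨B, N, R, h1, h2, h3, h4, h5, h6, h7⟩ :=
    Pur32.exists_pure (Res.plusStmt ℂ) pf ρ X S s hs hfr vx u rf hu v1 v2 v3 H2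
  obtain ⟨x⟩ : Nonempty (Pts X) := inferInstance
  exact ⟨B, N, R, h1, h2, h3, h4, h5, h6, x, h7 x⟩

/-- the factors which come from `Ym` on the concave end -/
inductive Jx : Type
  | U | A | G | R

instance : DecidableEq Jx := Classical.decEq _

instance : Fintype Jx := ⟨{.U, .A, .G, .R}, fun j => by cases j <;> simp⟩

variable {K F M E F' : Type} [Field K] [Algebra ℂ K] [Field F] [Algebra ℂ F] [Field M]
  [Algebra ℂ M] [Field E] [Algebra ℂ E] [Field F'] [Algebra ℂ F']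

theorem nt_fin {N : ℕ} (h : 0 < N) : Nontrivial (Fin (N + 1)) := Fin.nontrivial_iff_two_le.2 (by omega)

theorem reg_of {ι : Type} [Fintype ι] [DecidableEq ι] {B : PModel ℂ E} {y : ι → E} (h : Gn B y) :
    (Tup.mk ι y).Reg (sv B) := ⟨h.exists_ne, mxf_mem h⟩

namespace Spc

variable {D : Dat K F E} {α : K →ₐ[ℂ] M} {β : F →ₐ[ℂ] M} {ρ : M →ₐ[ℂ] E} {h : D.Ok α β ρ}
  (W : Spc h)

/-- the factors `U, A, G, R` -/
def T0 : Jx → Tup E
  | .U => ⟨D.ιU, D.yU⟩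
  | .A => ⟨Fin (D.Y.N + 1), fun i => D.κ (D.Y.y i)⟩
  | .G => ⟨Option (Fin (D.S.N + 1)), D.yG⟩
  | .R => ⟨Fin (W.N + 1), W.R⟩

/-- all factors -/
def T : Option (Option Jx) → Tup E
  | none => ⟨Option (D.ιU × Fin (D.S.N + 1)), D.yC⟩
  | some none => ⟨Fin (D.S.N + 1), D.μ⟩
  | some (some k) => W.T0 k

theorem reg0 (k : Jx) : (W.T0 k).Reg (sv W.B) := by
  cases k
  exacts [reg_of (W.gn .U), reg_of (W.gn .A), reg_of (W.gn .G), reg_of W.gnR]

theorem nt0 (hY : 0 < D.Y.N) (k : Jx) : Nontrivial (W.T0 k).io := by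
  cases k
  · exact ⟨⟨(0, .inl (0, 0)), (0, .inr 0), fun h => Sum.inl_ne_inr (congrArg Prod.snd h)⟩⟩
  · exact nt_fin hY
  · exact ⟨⟨none, some 0, (Option.some_ne_none _).symm⟩⟩
  · exact nt_fin W.N_pos

/-- the embedding -/
def m (hY : 0 < D.Y.N) (hS : 0 < D.S.N) : Gwb.Emb (sv W.B) where
  J := Option (Option Jx)
  T := W.T
  reg := by
    rintro (_ | _ | k)
    exacts [reg_of (W.gn .C), reg_of W.gnS, W.reg0 k]
  emb := isE_of (Y := sv W.B) W.T fun w => by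
    obtain ⟨i, k, hw⟩ := W.emb w
    refine ⟨_, hw, ?_⟩
    rintro _ (⟨l, rfl⟩ | ⟨l, rfl⟩)
    · exact ⟨some (some .R), l, i, W.R_ne i,
        fun l => hw.le (Algebra.subset_adjoin (Or.inl ⟨l, rfl⟩)), rfl⟩
    · exact ⟨some none, l, k, Dat.μ_ne k, fun l => (h.μ_div k l).symm ▸
        hw.le (Algebra.subset_adjoin (Or.inr ⟨l, rfl⟩)), (h.μ_div k l).symm⟩
  nt := by
    rintro (_ | _ | k)
    exacts [⟨⟨none, some ((0, .inr 0), 0), (Option.some_ne_none _).symm⟩⟩, nt_fin hS, W.nt0 hY k]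
  cod := cod_of_eq W.T none (some ((0, .inl (0, 0)), ⟨1, Nat.succ_lt_succ hS⟩))
    (some ((0, .inl (0, ⟨1, Nat.succ_lt_succ hS⟩)), 0))
    (fun h => one_ne_zero (congrArg (fun p : D.ιU × Fin (D.S.N + 1) => p.2.1)
      (Option.some.inj h))) (by
      simp only [T, Dat.yC, Dat.yU, Option.elim, Sum.elim_inl]
      ring)

theorem res_R : ∃ (r : Fin (W.N + 1) → K) (i : Fin (W.N + 1)), r i ≠ 0 ∧
    ∀ l, W.R l / W.R i ∈ W.em.i.p.O ∧ W.em.i.p.π (W.R l / W.R i) = α (r l) := by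
  obtain ⟨x, i, L, h1, h2, h3⟩ := W.pur
  obtain ⟨s⟩ : Nonempty (Pts D.S) := inferInstance
  obtain ⟨k, hk⟩ := exists_pat s
  obtain ⟨z, rfl, rfl⟩ : ∃ z : Pts (Cns.prod D.Ym D.S h.pf), (Cns.fst _ _ h.pf).map z = x ∧
      (Cns.snd _ _ h.pf).map z = s := ⟨Cns.mk h.pf x s, Cns.fst_mk _ _ _, Cns.snd_mk _ _ _⟩
  have h4 : L.O ≤ (lp (W.em.i.map z)).O := vx_le h h2 h3 (κ_mem W.em rfl z) fun k' => by
    have h5 := μ_mem W.em rfl hk k'
    rw [h.um_mul _ _ k, ← h.μ_div]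
    exact ⟨mul_mem (W.witm z hk).mem h5, by
      rw [LP.v_mul _ (W.witm z hk).mem h5]
      exact mul_eq_zero_of_left (W.witm z hk).ev_eq _⟩
  have h5 := mem_range_of_gen α W.em.i.p h2 (fun f hf => W.em.i.mem_O (h4 hf))
    (fun f hf h0 h5 => h0 (by
      rw [← (dom_le h4).eq f hf]
      exact (W.em.i.ev_map (h4 hf)).trans (by rw [h5]; exact LP.v_zero _))) (by
      rintro _ (⟨f, -, rfl⟩ | ⟨k', rfl⟩)
      · exact ⟨f, (p0_ρ h.rf.inv (α f)).2.symm⟩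
      · refine ⟨0, ?_⟩
        beta_reduce
        rw [h.um_eq', mul_comm, map_zero]
        exact (p0_scale h.rf.inv _).2.symm)
  choose r hr using fun l => h5 _ (h1 l)
  refine ⟨r, i, fun h0 => ?_, fun l => ⟨W.em.i.mem_O (h4 (h1 l)), (hr l).symm⟩⟩
  have h6 := hr i
  rw [h0, map_zero, div_self (W.R_ne i), Plc.π_one] at h6
  exact zero_ne_one h6

/-- on the concave end the factors `U, A, G, R` come from `Ym` -/
theorem res : ∃ (r : ∀ k, (W.T0 k).io → K) (u : Jx → E),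
    (∀ q : D.ιU, r .U q = q.2.elim (fun _ => 0) fun l => D.a q.1 * D.Ym.y l) ∧
    ∀ k, (∃ l, r k l ≠ 0) ∧ ∀ l, (W.T0 k).y l / u k ∈ W.em.i.p.O ∧
      W.em.i.p.π ((W.T0 k).y l / u k) = α (r k l) := by
  obtain ⟨r, i, h1, h2⟩ := W.res_R
  have k0 : ∀ {f : E} (c : M), f = ρ c * D.t⁻¹ → f ∈ W.em.i.p.O ∧ W.em.i.p.π f = α 0 := by
    rintro _ c rfl
    rw [map_zero]
    exact p0_scale h.rf.inv c
  have k1 : ∀ {f : E} (c : K), f = D.κ c → f ∈ W.em.i.p.O ∧ W.em.i.p.π f = α c := by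
    rintro _ c rfl
    rw [h.κ]
    exact p0_ρ h.rf.inv _
  refine ⟨fun k => match k with
    | .U => fun q : D.ιU => q.2.elim (fun _ => 0) fun l => D.a q.1 * D.Ym.y l
    | .A => D.Y.y
    | .G => fun o : Option (Fin (D.S.N + 1)) => o.elim 1 fun _ => 0
    | .R => r, fun k => match k with
    | .U => D.t
    | .A => 1
    | .G => D.t
    | .R => W.R i, fun _ => rfl, fun k => ?_⟩
  cases k
  · refine ⟨⟨(0, .inr 0), mul_ne_zero (h.a 0) (D.Ym.y_ne 0)⟩, ?_⟩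
    rintro ⟨j, p | l⟩
    · refine k0 (α (D.a j) * (α (D.a p.1) * β (D.S.y p.2))) ?_
      rw [map_mul, map_mul, ← h.κ, ← h.κ, ← h.σ]
      exact div_eq_mul_inv _ _
    · refine k1 _ ?_
      change D.κ (D.a j) * (D.t * D.κ (D.Ym.y l)) / D.t = D.κ (D.a j * D.Ym.y l)
      rw [map_mul, mul_left_comm, mul_div_cancel_left₀ _ h.ne.t]
  · exact ⟨⟨(0 : Fin (D.Y.N + 1)), D.Y.y_ne 0⟩, fun l => k1 _ (div_one _)⟩
  · refine ⟨⟨none, one_ne_zero⟩, ?_⟩
    rintro (_ | l)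
    · exact k1 1 ((div_self h.ne.t).trans (map_one _).symm)
    · refine k0 (α D.gp * β (D.S.y l)) ?_
      rw [map_mul, ← h.κ, ← h.σ]
      exact div_eq_mul_inv _ _
  · exact ⟨⟨i, h1⟩, h2⟩

/-- the projection to `Y` -/
def ζ : Hom (sv W.B) (sv D.Y) := Cns.morHom D.κ fun w => (W.gn .A w).imp fun _ hi => hi.2

/-- the projection to `S` -/
def σ : Hom (sv W.B) (sv D.S) := Cns.morHom D.σ fun w => (W.gnS w).imp fun _ hi => hi.2

theorem ζ_end {Q : PModel ℂ K} (hQ : Chn.Ge Q D.Y)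
    (e : End (sv (Cns.prod Q D.S h.pf)) (sv W.B)) (he : e.ρ = ρ) (z : Pts (Cns.prod Q D.S h.pf)) :
    W.ζ.map (e.i.map z) = (mor hQ).map ((Cns.fst _ _ h.pf).map z) :=
  W.ζ.map_eq (dom_le fun f hf => ⟨Algebra.mem_top, κ_mem e he z f ((Pt39.dom_mor hQ _).le hf)⟩)

theorem σ_end {Q : PModel ℂ K} (e : End (sv (Cns.prod Q D.S h.pf)) (sv W.B)) (he : e.ρ = ρ)
    (z : Pts (Cns.prod Q D.S h.pf)) : W.σ.map (e.i.map z) = (Cns.snd _ _ h.pf).map z :=
  W.σ.map_eq (dom_le fun f hf => ⟨Algebra.mem_top, by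
    change D.σ f ∈ _
    rw [h.σ, ← DFunLike.congr_fun he]
    exact e.ρ_mem ((mem_prod h.pf z).2 _ hf)⟩)

/-- the map to the cone -/
theorem exists_γ (c : Cone F' D.S) : ∃ γ : Hom (sv W.B) (sv c.P),
    Rs γ (ownT (sv c.P)) (W.T0 .G) ∧ Bim (pair W.ζ γ) ∧ ∀ (w : Pts W.B) (k : Fin (D.S.N + 1)),
      (∀ o, D.yG o / D.yG (some k) ∈ (lp w).O) →
      ∀ o, ∃ f ∈ (lp (γ.map w)).O, γ.p.π f = D.yG o / D.yG (some k) := by
  obtain ⟨φ, h1, h2, h3⟩ := c.exists_φ h.pf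
    (h.rf.scale (inv_ne_zero ((map_ne_zero α).2 h.gp.1)))
  have e := Dat.κ_ne (D := D) h.gp.1
  have h4 : ∀ o, D.yG o = D.κ D.gp * φ (c.P.y (c.e o)) := by
    rintro (_ | k)
    · rw [c.y0, h2, map_inv₀, ← h.κ, mul_inv_cancel_left₀ e]
      rfl
    · rw [c.y1, h1, ← h.σ]
      rfl
  have h5 : ∀ o o', φ (c.P.y (c.e o)) / φ (c.P.y (c.e o')) = D.yG o / D.yG o' := fun o o' => by
    rw [h4, h4, mul_div_mul_left _ _ e]
  let γ : Hom (sv W.B) (sv c.P) := Cns.morHom φ fun w => by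
    obtain ⟨o, -, ho⟩ := W.gn .G w
    refine ⟨c.e o, fun j => ?_⟩
    obtain ⟨o', rfl⟩ := c.e.surjective j
    exact (h5 o' o).symm ▸ ho o'
  refine ⟨γ, ⟨c.e.symm, 1, D.κ D.gp, fun _ => Algebra.mem_top, fun j => ?_⟩,
    bim_of W.ζ γ (κ := D.κ) (φ := φ) rfl rfl (by rwa [show D.κ = ρ.comp α from AlgHom.ext h.κ]),
    fun w k hk o => ⟨c.P.y (c.e o) / c.P.y (c.e (some k)), y_mem (γ.map_mem_pat.2 fun j => ?_) _,
      (map_div₀ φ _ _).trans (h5 _ _)⟩⟩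
  · obtain ⟨o, rfl⟩ := c.e.surjective j
    change D.yG (c.e.symm (c.e o)) = D.κ D.gp * φ (c.P.y (c.e o) / 1)
    rw [Equiv.symm_apply_apply, div_one]
    exact h4 o
  · obtain ⟨o', rfl⟩ := c.e.surjective j
    refine ⟨Algebra.mem_top, ?_⟩
    change φ (c.P.y (c.e o') / c.P.y (c.e (some k))) ∈ _
    rw [map_div₀, h5]
    exact hk o'

theorem lpb_G : LPb W.ep.i (W.T0 .G).bd (pb β (oP D.S)) := by
  have h1 := W.ep.lpb (T := W.T0 .G)
    (p := ⟨Option (Fin (D.S.N + 1)), fun o => o.elim 0 fun k => β (D.S.y k)⟩)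
    (W.ep.rs (Equiv.refl _) (D.κ D.gp) ?_) ⟨some 0, (map_ne_zero β).2 (D.S.y_ne 0)⟩ (W.reg0 .G)
  · rwa [pb_oP, bd_eq (s := fun k => β (D.S.y k)) (s' := fun o : Option (Fin (D.S.N + 1)) => o.elim 0 fun k => β (D.S.y k))
      ⟨0, (map_ne_zero β).2 (D.S.y_ne 0)⟩ (fun k => ⟨some k, rfl⟩)
      fun o => o.casesOn (Or.inl rfl) fun k => Or.inr ⟨k, rfl⟩]
  · rintro (_ | k)
    · refine ⟨ρ (α D.gp)⁻¹, (p0_ρ h.rf _).1, ?_⟩
      change D.t / D.κ D.gp = ρ 0 + ρ (α D.gp)⁻¹ * D.t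
      rw [map_zero, zero_add, map_inv₀, ← h.κ, div_eq_inv_mul]
    · refine ⟨0, zero_mem _, ?_⟩
      change D.κ D.gp * D.μ k / D.κ D.gp = ρ (β (D.S.y k)) + 0 * D.t
      rw [zero_mul, add_zero, ← h.σ, mul_div_cancel_left₀ _ (Dat.κ_ne h.gp.1)]

theorem rs_S : Rs W.em.i (W.T (some none)) ⟨Fin (D.S.N + 1), fun k => β (D.S.y k)⟩ :=
  W.em.rs (Equiv.refl _) 1 fun k => ⟨0, zero_mem _, by
    rw [div_one, zero_mul, add_zero]
    exact h.σ _⟩

end Spc

theorem exists_cone (S : SV) (hS : IsProj S) : ∃ (F' : Type) (_ : Field F') (_ : Algebra ℂ F')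
    (c : Cone F' S.P), IsProj (sv c.P) :=
  ⟨(cone S hS).F, _, _, ⟨(cone S hS).P, cπ S, cτ S, (finSuccEquiv _).symm, c_rf S, rfl,
    fun _ => rfl⟩, isProj_cone S hS⟩

theorem exists_rf (M : Type) [Field M] [Algebra ℂ M] : ∃ (E : Type) (_ : Field E)
    (_ : Algebra ℂ E) (ρ : M →ₐ[ℂ] E) (t : E), IsRF ρ t :=
  ⟨RatFunc M, _, _, _, _, Cns.isRF_ratFunc⟩

theorem rs_own {X Y : SV} (μ : Hom X Y) {π : Y.F →ₐ[ℂ] X.F} (hμ : μ.p = Plc.ofHom π) :
    Rs μ (ownT Y) ⟨Fin (Y.P.N + 1), fun k => π (Y.P.y k)⟩ :=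
  ⟨Equiv.refl _, 1, 1, fun _ => hμ ▸ Algebra.mem_top, fun l => by
    rw [div_one, one_mul, hμ]
    rfl⟩

/-- the data of a situation -/
abbrev dat (s : Sit K) {n : ℕ} (a : Fin (n + 1) → K) (S : SV) (ρ : PF ℂ K S.F →ₐ[ℂ] E) (t : E) :
    Dat K S.F E :=
  ⟨s.Y, s.Yp, s.Ym, S.P, n, a, s.gp, s.gm, ρ.comp (pα ℂ K S.F), ρ.comp (pβ ℂ K S.F), t⟩

section Fin

variable {s : Sit K} {n : ℕ} {a : Fin (n + 1) → K} {S : SV} {ρ : PF ℂ K S.F →ₐ[ℂ] E} {t : E}
  {h : (dat s a S ρ t).Ok (pα ℂ K S.F) (pβ ℂ K S.F) ρ} (W : Spc h)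

theorem exists_pur (hY : 0 < s.Y.N) (hr : 0 < S.P.N) (hg : Gn s.Ym a) :
    ∃ (n : Gwb.Emb (sv s.Ym)) (p : Pur (Y := sv s.Ym) (S := S) W.em.i (W.m hY hr) n),
      p.e (some none) = some none ∧ (tm1 a s.Ym).bd = (n.T p.jU).bd := by
  obtain ⟨r, u, r1, r2⟩ := W.res
  have r3 := fun k => pure_of (Y := sv s.Ym) (S := S) (B := sv W.B) W.em.i (W.reg0 k) (u k)
    (r2 k).1 (r2 k).2
  have r4 : ∀ q, r .U q = 0 ∨ ∃ i l, r .U q = a i * s.Ym.y l := by
    rintro ⟨j, p | l⟩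
    exacts [Or.inl (r1 _), Or.inr ⟨j, l, r1 _⟩]
  have s1 := rs_own (snd (sv s.Ym) S) rfl
  refine ⟨
    { J := Jx
      T := fun k => ⟨(W.T0 k).io, r k⟩
      reg := fun k => (r3 k).1
      emb := isE_pad hg (fun k => ⟨(W.T0 k).io, r k⟩) .U (fun i l => (i, .inr l))
        (fun _ _ => r1 _) r4
      nt := W.nt0 hY
      cod := cod_of_zero (fun k => ⟨(W.T0 k).io, r k⟩) .U (0, .inl (0, 0)) (r1 _) },
    { e := Equiv.refl _, jU := .U
      rsS := ⟨_, End36.rs_reg s1 ⟨(0 : Fin (S.P.N + 1)), (map_ne_zero _).2 (S.P.y_ne 0)⟩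
        (End36.reg_own S), W.rs_S, s1⟩
      rsY := fun k => (r3 k).2
      f := Equiv.refl _, cv := fun _ _ => rfl, dv := W.dvm }, rfl, ?_⟩
  exact (bd_tm1 h.a).symm.trans (bd_eq
    ⟨(0, 0), mul_ne_zero (h.a 0) (s.Ym.y_ne 0)⟩ (fun p => ⟨(p.1, .inr p.2), r1 _⟩)
    fun q => (r4 q).imp_right fun ⟨i, l, h1⟩ => ⟨(i, l), h1⟩)

include W in
theorem exists_mst (hY : 0 < s.Y.N) (hS : IsProj S) (hr : 0 < S.P.N) (hg : Gn s.Ym a)
    (c : Cone F' S.P) (hc : IsProj (sv c.P))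
    (hgood : ∀ y : Pts s.Y, ¬ s.Bad y → At (mxf ℂ a) y (s.gp * s.gm) ∧
      (∃ x : Pts s.Yp, (lp x).O = (lp y).O ∧ At (oP s.Yp) x s.gp) ∧
      ∃ x : Pts s.Ym, (lp x).O = (lp y).O ∧ At (oP s.Ym) x s.gm) :
    ∃ M : Mst s (m1 h.a hg) S.P.N, Full M := by
  obtain ⟨γ, g1, g2, g3⟩ := W.exists_γ c
  obtain ⟨nn, p, p1, p2⟩ := exists_pur W hY hr hg
  have exc : ∀ w : Pts W.B, ¬ Form88.Iso (pair W.ζ γ) w →
      w ∈ Set.range W.em.i.map ∨ s.Bad (W.ζ.map w) := fun w hw => by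
    by_contra h0
    obtain ⟨h1, h2⟩ := not_or.1 h0
    obtain ⟨h3, ⟨xp, h4, -⟩, xm, h5, h6⟩ := hgood _ h2
    obtain ⟨k, h7, h8⟩ := Spc.fib (W := W) (fun f hf => W.ζ.π_mem hf) h3 h4 h5 h6 h1
    refine hw (iso_of W.ζ γ w h8 ?_)
    rintro _ (⟨f, hf, rfl⟩ | ⟨o, rfl⟩)
    exacts [Or.inl ⟨f, hf, rfl⟩, Or.inr (g3 w k h7 o)]
  have gp : LPb (snd (sv s.Yp) S) S.h (pb (pβ ℂ K S.F) (oP S.P)) := ⟨1, fun x g hg => by
    rw [div_one]
    exact hg.pb (Cns.snd_p _ _ _)⟩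
  exact ⟨
    { S := S, P := sv c.P, B := sv W.B, projS := hS, dimS := rfl, projP := hc
      m := W.m hY hr, ζ := W.ζ, σ := W.σ, γ := γ
      jA := some (some .A), jS := some none, jG := some (some .G)
      rsA := rs_own W.ζ rfl, rsS := rs_own W.σ rfl
      rsG := g1, bim := g2, ip := W.ep.i, im := W.em.i
      ip_ζ := W.ζ_end s.hp W.ep rfl, ip_σ := W.σ_end W.ep rfl
      im_ζ := W.ζ_end s.hm W.em rfl, im_σ := W.σ_end W.em rfl
      t := none, t_ne := h.rf.t_ne, dvp := W.dvp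
      gp := ⟨_, W.lpb_G, gp⟩
      n := nn, pur := p, pur_S := p1, pur_U := fun _ => p2, exc := exc },
    ⟨⟨ρ, t, h.rf, rfl, rfl, rfl, nofun, nofun, nofun, rfl, rfl⟩⟩⟩

end Fin

/-- **master spaces exist** -/
theorem mstStmt : MstStmt Full := by
  intro K _ _ s hd
  obtain ⟨n, a, ha, hg, hle, hgood⟩ := Pt39.exists_inp s
  have hg' : Gn s.Ym a := fun x => by
    obtain ⟨y, hy⟩ := exists_under s.hm x
    exact (hg y).imp fun j hj => ⟨hj.1, fun l => hy (hj.2 l)⟩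
  refine ⟨m1 ha hg', (inferInstance : Subsingleton Unit), fun r hr => ?_⟩
  obtain ⟨S, hS, rfl⟩ : ∃ S : SV, IsProj S ∧ S.P.N = r := ⟨pn r, isProj_pn r, rfl⟩
  obtain ⟨F', _, _, c, hc⟩ := exists_cone S hS
  obtain ⟨E, _, _, ρ, t, rf⟩ := exists_rf (PF ℂ K S.F)
  have h : (dat s a S ρ t).Ok (pα ℂ K S.F) (pβ ℂ K S.F) ρ :=
    ⟨isPF ℂ K S.F, rf, fun _ => rfl, fun _ => rfl, ha, s.gp_mem, s.gm_mem, s.hp, s.hm, hg, hle⟩
  obtain ⟨W⟩ := exists_spc pureStmt h c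
  exact exists_mst W (Pt39.N_pos s.Y (by omega)) hS hr hg' c hc hgood

end Crest.Agent.X262.Ms2
end
private theorem rz_52c70c3d01 : type_of% @_root_.Crest.Agent.X262.Ms2.Spc.T.eq_1 := @_root_.Crest.Agent.X262.Ms2.Spc.T.eq_1 -- L65
end

-- ▼ part X262/Rb6/Main

/-!
# Row 262, road B, ENDS (helper6): bounds for the moduli and for the rank

* `hev_pf`, `hev_mul`, `hev_sum` : values of forms at vectors;
* `essFT_cfl`, `trdeg_le`, `dim_cfl` : the field of moduli;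
* `finrank_KS_le`, `KS_le_nsec` : the rank;
* `rbStmt : Ends.RbStmt`.
-/

set_option autoImplicit false
set_option linter.unusedSectionVars false

noncomputable section

namespace Crest.Agent.X262.Rb6

open Crest.Agent.X277 Crest.Agent.X277.BD Polynomial Matrix
open Crest.Agent.X262.Vb Crest.Agent.X262.Vb37 Crest.Agent.X262.Ends Crest.Agent.X262.Tree87
open Crest.Agent.X262.Bub96 (hv Tr)
open Crest.Agent.X262.Bub96.Tr (dot)

variable {J : Type} [Fintype J] [DecidableEq J] {io : J → Type} [∀ j, Fintype (io j)]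
  [∀ j, DecidableEq (io j)] {A : Type} [Fintype A]
  {K E L : Type} [Field K] [Algebra ℂ K] [Field E] [Algebra ℂ E] [Field L] [Algebra ℂ L]
  {d κ : J → ℕ} {f g : (j : J) → io j → E[X]} {q : MvPolynomial (Vr io) ℂ}

theorem pv_scl (h : MH q κ) {c : J → E} (hc : ∀ j, c j ≠ 0) (y : Pnt io E) :
    pv (fun j i => c j * y j i) q = (∏ j, c j ^ κ j) * pv y q := by
  simpa using (MZ.of_MH h).pv_scl hc y

theorem pf_spec (h : MH q κ) (hg : ∀ j i, (g j i).natDegree ≤ d j) :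
    (pf g q).natDegree ≤ dot κ d ∧ ∀ t, hv (dot κ d) (pf g q) t = pv (pt d g t) q := by
  have h1 := (MZ.of_MH h).sb hg
  rw [show (∑ j, (κ j : ℤ) * d j) = (dot κ d : ℕ) by simp only [dot]; push_cast; rfl] at h1
  exact ⟨DL_nat.1 h1.1, fun t => (ev_eq_hv _ _ _).symm.trans (h1.2 t)⟩

theorem hev_pf (h : MH q κ) (hg : ∀ j i, (g j i).natDegree ≤ d j) {w : Fin 2 → E} (hw : w ≠ 0) :
    hev (dot κ d) (pf g q) w = pv (fun j i => hev (d j) (g j i) w) q := by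
  obtain ⟨u, t, hu, rfl⟩ := exists_hx hw
  simp only [hev_smul, hev_hx (hg _ _), hev_hx (pf_spec h hg).1, (pf_spec h hg).2,
    pv_scl h fun j => pow_ne_zero (d j) hu]
  simp only [dot, ← pow_mul, Finset.prod_pow_eq_pow_sum, mul_comm (d _)]
  rfl

theorem hev_mul {m n : ℕ} {a b : E[X]} (ha : a.natDegree ≤ m) (hb : b.natDegree ≤ n)
    {w : Fin 2 → E} (hw : w ≠ 0) : hev (m + n) (a * b) w = hev m a w * hev n b w := by
  obtain ⟨u, t, hu, rfl⟩ := exists_hx hw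
  rw [hev_smul, hev_smul, hev_smul, hev_hx ha, hev_hx hb,
    hev_hx (natDegree_mul_le.trans (add_le_add ha hb)), ← ev_eq_hv, Nat.cast_add,
    ev_mul (DL_nat.2 ha) (DL_nat.2 hb), ev_eq_hv, ev_eq_hv, pow_add, mul_mul_mul_comm]

theorem hev_sum {ι : Type} (s : Finset ι) (n : ℕ) (a : ι → E[X]) (w : Fin 2 → E) :
    hev n (∑ i ∈ s, a i) w = ∑ i ∈ s, hev n (a i) w := by
  simp only [hev, finsetSum_coeff, Finset.sum_mul]
  exact Finset.sum_comm

theorem pf_map (β : K →ₐ[ℂ] E) (f : (j : J) → io j → K[X]) (q : MvPolynomial (Vr io) ℂ) :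
    pf (fun j i => (f j i).map (β : K →+* E)) q = (pf f q).map (β : K →+* E) :=
  (MvPolynomial.comp_aeval_apply (fun v : Vr io => f v.1 v.2) (mapAlgHom β) q).symm

variable {μ : Matrix (Fin 2) (Fin 2) E} {c : J → E}

theorem mulVec_ne (hμ : μ.det ≠ 0) {w : Fin 2 → E} (hw : w ≠ 0) : μ *ᵥ w ≠ 0 :=
  fun h => hw (Matrix.eq_zero_of_mulVec_eq_zero hμ h)

theorem pf_mob (hf : ∀ j i, (f j i).natDegree ≤ d j) (hμ : μ.det ≠ 0) (hc : ∀ j, c j ≠ 0)
    (h : MH q κ) : pf (fun j i => C (c j) * mob (d j) μ (f j i)) q =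
      C (∏ j, c j ^ κ j) * mob (dot κ d) μ (pf f q) := by
  have := inf_of_alg E
  refine Polynomial.funext fun t => ?_
  rw [eval_mul, eval_C, eval_mob, hev_pf h hf (mulVec_ne hμ (hx_ne _)), ← pv_scl h hc]
  refine ((pf_spec (g := fun j i => C (c j) * mob (d j) μ (f j i)) h fun j i =>
    (natDegree_C_mul_le _ _).trans (natDegree_mob _ _ _)).2 (some t)).trans (congrArg (pv · q) ?_)
  funext j i
  rw [pt, hv_C_mul, hv_mob]

/-! ### moduli -/

theorem essFT_cfl (hg : ∀ j i, (g j i).natDegree ≤ d j) : Algebra.EssFiniteType ℂ (cfl g) := by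
  refine IntermediateField.essFiniteType_iff.2 (IntermediateField.fg_adjoin_of_finite
    (((Set.finite_range fun x : Σ j, io j × io j × Fin (d j + 1) × Fin (d j + 1) =>
      (g x.1 x.2.1).coeff x.2.2.2.1 / (g x.1 x.2.2.1).coeff x.2.2.2.2).insert 0).subset ?_))
  rintro _ ⟨j, i, i', l, l', rfl⟩
  rcases lt_or_ge (d j) l with h | h
  · exact Or.inl (by rw [coeff_eq_zero_of_natDegree_lt ((hg j i).trans_lt h), zero_div])
  rcases lt_or_ge (d j) l' with h' | h'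
  · exact Or.inl (by rw [coeff_eq_zero_of_natDegree_lt ((hg j i').trans_lt h'), div_zero])
  exact Or.inr ⟨⟨j, i, i', ⟨l, by omega⟩, ⟨l', by omega⟩⟩, rfl⟩

open scoped IntermediateField.algebraAdjoinAdjoin in
theorem trdeg_le (β : K →ₐ[ℂ] E) {ι : Type} (t : ι → E) {F : IntermediateField ℂ E}
    (h : F ≤ IntermediateField.adjoin ℂ (Set.range β ∪ Set.range t)) :
    Algebra.trdeg ℂ F ≤ Algebra.trdeg ℂ K + Cardinal.mk ι := by
  let := β.toRingHom.toAlgebra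
  have : IsScalarTower ℂ K E := IsScalarTower.of_algebraMap_eq fun c => (β.commutes c).symm
  let E' := IntermediateField.adjoin K (Set.range t)
  have h1 : F ≤ E'.restrictScalars ℂ := h.trans (IntermediateField.adjoin_le_iff.2 (by
    rintro _ (⟨x, rfl⟩ | hx)
    exacts [E'.algebraMap_mem x, IntermediateField.subset_adjoin K _ hx]))
  have h2 : Algebra.trdeg ℂ F ≤ Algebra.trdeg ℂ E' :=
    trdeg_le_of_injective (IntermediateField.inclusion h1) (IntermediateField.inclusion_injective h1)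
  have : FaithfulSMul K (Algebra.adjoin K (Set.range t)) :=
    (faithfulSMul_iff_algebraMap_injective _ _).2 (algebraMap K _).injective
  rw [← trdeg_add_eq ℂ K (A := E'), ← trdeg_add_eq K (Algebra.adjoin K (Set.range t)) (A := E'),
    trdeg_eq_zero (R := Algebra.adjoin K _), add_zero, Algebra.adjoin_range_eq_range_aeval] at h2
  refine h2.trans (add_le_add_right ((trdeg_le_of_surjective _
    (MvPolynomial.aeval t).rangeRestrict_surjective).trans ?_) _)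
  simp

theorem dim_cfl [Algebra.EssFiniteType ℂ K] {f : (j : J) → io j → K[X]} (hf : Cp d f)
    (β : K →ₐ[ℂ] E) (hμ : μ.det ≠ 0) (hc : ∀ j, c j ≠ 0)
    (hg : ∀ j i, g j i = C (c j) * mob (d j) μ ((f j i).map (β : K →+* E))) :
    dim ℂ (cfl g) ≤ dim ℂ K + 3 := by
  obtain rfl : g = _ := _root_.funext fun j => _root_.funext (hg j)
  have h1 := hf.map (β : K →+* E)
  let ξ : Dat io d (Fin 3) E := ⟨_, ![none, some 0, some 1], cp_mob h1 hμ hc⟩
  choose u x _ hu using fun p => exists_hx (mulVec_ne hμ (hx_ne (ξ.x p)))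
  let η : Dat io d (Fin 3) E := ⟨_, x, h1⟩
  have h2 := crd_le_of_eqv (eqv_symm (ξ := η) (η := ξ)
    ⟨μ, c, hμ, hc, fun _ _ => rfl, fun p => ⟨u p, hu p⟩⟩) (a := 0) (b := 1) (c := 2) ⟨rfl, rfl, rfl⟩
  have := essFT_cfl ξ.cp.1
  have h3 := trdeg_le β (fun p => (x p).getD 0) (F := cfl ξ.f)
    ((IntermediateField.adjoin.mono _ _ _ fun _ h => Or.inl h).trans (h2.trans
      (IntermediateField.adjoin_le_iff.2 (by
        rintro _ (⟨j, i, i', l, l', rfl⟩ | ⟨p, hp⟩)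
        · exact IntermediateField.subset_adjoin _ _ (Or.inl ⟨(f j i).coeff l / (f j i').coeff l', by
            simp [η]⟩)
        · exact IntermediateField.subset_adjoin _ _ (Or.inr ⟨p, by
            simp only [show x p = _ from hp, Option.getD_some]⟩)))))
  rw [trdeg_eq_dim, trdeg_eq_dim, Cardinal.mk_fin] at h3
  exact_mod_cast h3

/-! ### the rank -/

variable {T : Tgt io A} {S : Syz T}

theorem coeff_pol (u : Cx T d → E) (x : Cx T d) : (pol u x.1).coeff x.2 = u x := by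
  rw [pol, finsetSum_coeff, Finset.sum_eq_single x.2 (fun l _ h => by
    rw [coeff_monomial, if_neg fun h1 => h (Fin.ext h1)]) (by simp), coeff_monomial, if_pos rfl]

theorem natDegree_pol (u : Cx T d → E) (a : A) : (pol u a).natDegree ≤ dot (T.k a) d :=
  natDegree_sum_le_of_forall_le _ _ fun l _ =>
    (natDegree_monomial_le _).trans (Nat.le_of_lt_succ l.2)

theorem pol_map (α : E →+* L) (u : Cx T d → E) (a : A) :
    pol (fun x => α (u x)) a = (pol u a).map α := by simp [pol, Polynomial.map_sum]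

theorem mapS_KS_le (α : E →ₐ[ℂ] L) : mapS α (KS S d g) ≤ KS S d (mpf (α : E →+* L) g) := by
  refine Submodule.span_le.2 ?_
  rintro _ ⟨u, hu, rfl⟩ b
  have h := congrArg (Polynomial.map (α : E →+* L)) (hu b)
  simp only [Polynomial.map_sum, Polynomial.map_mul, Polynomial.map_zero, ← pf_map, ← pol_map] at h
  exact h

theorem finrank_KS_le (α : E →ₐ[ℂ] L) :
    Module.finrank E (KS S d g) ≤ Module.finrank L (KS S d (mpf (α : E →+* L) g)) :=
  (finrank_mapS α _).ge.trans (Submodule.finrank_mono (mapS_KS_le α))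

theorem finite_nsec : Module.Finite E (nsec T d f) := by
  refine Module.Finite.of_injective (N := Cx T d → E)
    (LinearMap.pi (fun x => lcoeff E x.2 ∘ₗ LinearMap.proj x.1) ∘ₗ (nsec T d f).subtype)
    ((injective_iff_map_eq_zero _).2 fun σ h => Subtype.ext (funext fun a => Polynomial.ext fun l => ?_))
  rcases lt_or_ge (dot (T.k a) d) l with h1 | h1
  · exact (mem_Sec.1 σ.2).1 a l (Nat.cast_lt.2 h1)
  · exact congrFun h ⟨a, l, by omega⟩

theorem KS_le_nsec [IsAlgClosed E] {r : ℕ} (hS : GoodS S r d) (hf : Cp d f)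
    (on : ∀ a, pf f (T.F a) = 0) (hμ : μ.det ≠ 0) (hc : ∀ j, c j ≠ 0) :
    Module.finrank E (KS S d fun j i => C (c j) * mob (d j) μ (f j i)) ≤
      Module.finrank E (nsec T d f) := by
  have := inf_of_alg E
  have := finite_nsec (T := T) (d := d) (f := f)
  have h1 : μ⁻¹.det ≠ 0 := by rw [det_nonsing_inv, Ring.inverse_eq_inv']; exact inv_ne_zero hμ
  have h2 : ∀ κ : J → ℕ, ∏ j, c j ^ κ j ≠ 0 := fun κ =>
    Finset.prod_ne_zero_iff.2 fun j _ => pow_ne_zero _ (hc j)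
  let φ : (Cx T d → E) →ₗ[E] A → E[X] :=
    { toFun := fun u a => C (∏ j, c j ^ T.k a j)⁻¹ * mob (dot (T.k a) d) μ⁻¹ (pol u a)
      map_add' := fun u u' => funext fun a => by
        rw [Pi.add_apply, ← mul_add, ← mob_add]
        simp [pol, Finset.sum_add_distrib]
      map_smul' := fun s u => funext fun a => by
        rw [Pi.smul_apply, RingHom.id_apply, smul_eq_C_mul, mul_left_comm, ← mob_C_mul _ _ s]
        simp [pol, Finset.mul_sum, C_mul_monomial] }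
  refine LinearMap.finrank_le_finrank_of_injective (f := φ.restrict fun u hu => ?_)
    ((injective_iff_map_eq_zero _).2 fun u h => Subtype.ext (funext fun x => ?_))
  · refine mem_Sec.2 ⟨fun a => DL_nat.2 ((natDegree_C_mul_le _ _).trans (natDegree_mob _ _ _)),
      fun p => (hS E (Tr.leaf d f) ⟨hf.1, cp_hv hf⟩ rfl (fun x a => ?_) ((), p)).2 _ fun b => ?_⟩
    · refine ((pf_spec (T.hom a) hf.1).2 x.2).symm.trans ?_
      rw [on, ← ev_eq_hv, map_zero]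
    · have h3 := mulVec_ne h1 (hx_ne p)
      have h4 := congrArg (hev (dot (S.e b) d) · (μ⁻¹ *ᵥ hx p)) (hu b)
      simp only [hev_sum] at h4
      refine mul_left_cancel₀ (h2 (S.e b)) ?_
      rw [mul_zero, Finset.mul_sum]
      refine (Finset.sum_congr rfl fun a _ => ?_).trans (h4.trans (by simp [hev]))
      rcases S.hom b a with h5 | ⟨κ, h5, h6⟩
      · simp [h5, pv, pf, hev]
      · have h7 : evv (fun a => (dot (T.k a) d : ℤ)) p (φ u) a =
            (∏ j, c j ^ T.k a j)⁻¹ * hev _ (pol u a) (μ⁻¹ *ᵥ hx p) :=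
          (ev_eq_hv _ _ _).trans (by rw [← hv_mob, ← hv_C_mul]; rfl)
        rw [h7, ← h5, show dot (κ + T.k a) d = dot κ d + dot (T.k a) d by
          simp [dot, add_mul, Finset.sum_add_distrib], pf_mob hf.1 hμ hc h6,
          hev_mul ((natDegree_C_mul_le _ _).trans (natDegree_mob _ _ _)) (natDegree_pol u a) h3,
          hev_C_mul, hev_mob, mulVec_mulVec, mul_nonsing_inv _ hμ.isUnit, one_mulVec,
          hev_hx (pf_spec h6 hf.1).1, (pf_spec h6 hf.1).2]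
        simp only [Pi.add_apply, pow_add, Finset.prod_mul_distrib]
        rw [mul_mul_mul_comm, mul_inv_cancel_left₀ (h2 _)]
        rfl
  · have h4 : C (∏ j, c j ^ T.k x.1 j)⁻¹ * mob (dot (T.k x.1) d) μ⁻¹ (pol u.1 x.1) = 0 :=
      congrFun (congrArg Subtype.val h) x.1
    have h3 := congrArg (mob (dot (T.k x.1) d) μ)
      ((mul_eq_zero.1 h4).resolve_left (C_ne_zero.2 (inv_ne_zero (h2 _))))
    rw [mob_mob, nonsing_inv_mul _ hμ.isUnit, mob_one (natDegree_pol _ _)] at h3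
    rw [← coeff_pol u.1, h3]
    simp [mob]

/-- **RB** -/
theorem rbStmt : RbStmt := by
  intro J _ _ io _ _ A _ T r d ν j₁ K _ _ _ f S hS hL hR E _ _ g ⟨β, μ, c, hμ, hc, hg⟩
  have h1 := dim_cfl hL.cp β hμ hc hg
  obtain rfl : g = _ := _root_.funext fun j => _root_.funext (hg j)
  have h2 := hL.cp.map (β : K →+* E)
  refine ⟨cp_mob h2 hμ hc, fun a => ?_, hL.dm ▸ h1, ?_⟩
  · rw [pf_mob h2.1 hμ hc (T.hom a), pf_map, hL.on]
    simp [mob]
  · let α := IsScalarTower.toAlgHom ℂ E (AlgebraicClosure E)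
    refine le_trans ?_ (hR _ (α.comp β))
    have h3 := KS_le_nsec hS (hL.cp.map (α.comp β : K →+* _))
      (fun a => by rw [pf_map, hL.on, Polynomial.map_zero])
      (μ := μ.map (α : E →+* _)) (c := fun j => α (c j))
      (by rw [← RingHom.mapMatrix_apply, ← RingHom.map_det]; exact (_root_.map_ne_zero _).2 hμ)
      fun j => (_root_.map_ne_zero _).2 (hc j)
    refine Nat.add_le_add_right (Nat.add_le_add_right ((finrank_KS_le α).trans
      (le_of_eq_of_le (congrArg (fun g => Module.finrank _ (KS S d g)) ?_) h3)) _) _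
    funext j i
    rw [mpf, Polynomial.map_mul, map_C, mob_map, Polynomial.map_map]
    rfl

end Crest.Agent.X262.Rb6
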